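import Vale.Agent.P054.T2.H82.InstN
import Vale.Agent.P054.T2.H428.SecC
import Vale.Agent.P054.T2.H431.MD

/-!
# P054 / T2, [INST-N]: case N in the letters of `SecC.Side`

The conclusion is the hypothesis `hmd1` of `H701/GoodSide.lean`.
-/

namespace Vale.Agent.P054.T2.H82

open scoped BigOperators
open MvPolynomial H431 H580 H441 H163 Module

/-! ### arbitrary order `m` with `T ≤ m + J` -/

section germ

variable {K : Type*} [Field K] {n : ℕ}
variable {R : Type*} [CommRing R] [Algebra K R] {W : ℕ → Submodule K R} (hW : IsFilt W)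

include hW

/-- **right type**, any order -/
theorem inst_right_gen (V : Submodule K (Rc n → K))
    (hinj : ∀ v ∈ V, (∀ j, v (Sum.inl j) = 0) → v = 0) (s : Rc n → K) (ρ : Rc n → R)
    (u : Fin n → R) {w₀ : ℕ} (hρ : ∀ l, ρ l ∈ W w₀) (hu : ∀ j, u j ∈ W 1)
    (hflat : ∀ c : Rc n → K, (∀ v ∈ V, ∑ l, c l * v l = 0) → ∑ l, c l • ρ l = 0)
    (hinc : ∀ j : Fin n, ρ (Sum.inl j.succ) = u j * ρ (Sum.inl 0))
    (P₂ : Ideal (MvPolynomial (Rc n) K)) (hP₂ : ∀ F, phiS s ρ F = 0 → F ∈ P₂) {J T q : ℕ}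
    (hq : T ≤ q + J) :
    finrank K ((restrictTotalDegree (Rc n) K T ⊓ (m s ^ q).restrictScalars K).map
      (Ideal.Quotient.mkₐ K P₂).toLinearMap) ≤ finrank K (W (T + (J + 1) * w₀)) := by
  classical
  obtain ⟨A, hA⟩ := exists_coords_right V hinj
  have hρA : ∀ l, ρ l = ∑ j, A l j • ρ (Sum.inl j) := by
    intro l
    have h1 := flat_apply V ρ hflat l (A l) 0 0 (fun v hv => by rw [hA v hv l]; simp)
    rw [h1]
    simp
  have h0 := fact_finrank hW (phiS s ρ) s P₂ hP₂ (x₀ := ρ (Sum.inl 0)) (y := 0)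
    (x := fun j => ρ (Sum.inl j)) (u := Fin.cons 1 u) (x_eq ρ u hinc) (u_mem hW hu)
    (hρ _) (Submodule.zero_mem _) (D := 1) Nat.one_pos (fun _ => 0)
    (fun j _ => Submodule.zero_mem _) (by simp) (fun l => by
      rw [phiS_sub]
      refine Gr_zero_mem Nat.one_pos ?_
      rw [hρA l]
      exact Submodule.sum_mem _ fun j _ => Submodule.smul_mem _ _
        (self_mem_Sx (fun j => ρ (Sum.inl j)) j))
    (T := T) (n := q) (J := J) hq
  rwa [H82.mId_eq] at h0

/-- **wrong type**, any order -/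
theorem inst_wrong_gen (V : Submodule K (Rc n → K)) (n₀ : Rc n → K) (hn₀V : n₀ ∈ V)
    (hn₀ : n₀ ≠ 0) (hn₀z : ∀ j, n₀ (Sum.inl j) = 0)
    (hker : ∀ v ∈ V, (∀ j, v (Sum.inl j) = 0) → ∃ c : K, v = c • n₀) (s : Rc n → K)
    (ρ : Rc n → R) (u : Fin n → R) {w₀ : ℕ} (hρ : ∀ l, ρ l ∈ W w₀) (hu : ∀ j, u j ∈ W 1)
    (hflat : ∀ c : Rc n → K, (∀ v ∈ V, ∑ l, c l * v l = 0) → ∑ l, c l • ρ l = 0)
    (hinc : ∀ j : Fin n, ρ (Sum.inl j.succ) = u j * ρ (Sum.inl 0))
    {D : ℕ} (hD : 0 < D) {G : MvPolynomial (Rc n) K} (hG : G.IsHomogeneous D)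
    (hG0 : aeval ρ G = 0) (hGn : eval n₀ G ≠ 0)
    (P₂ : Ideal (MvPolynomial (Rc n) K)) (hP₂ : ∀ F, phiS s ρ F = 0 → F ∈ P₂) {J T q : ℕ}
    (hq : T ≤ q + J) :
    finrank K ((restrictTotalDegree (Rc n) K T ⊓ (m s ^ q).restrictScalars K).map
      (Ideal.Quotient.mkₐ K P₂).toLinearMap) ≤ finrank K (W (T + (J + D) * w₀)) := by
  classical
  obtain ⟨A, η, hA⟩ := exists_coords_wrong V n₀ hn₀V hn₀ hn₀z hker
  set y : R := ∑ l', η l' • ρ l' with hy
  have hρA : ∀ l, ρ l = ∑ j, A l j • ρ (Sum.inl j) + n₀ l • y := fun l =>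
    flat_apply V ρ hflat l (A l) (n₀ l) η (fun v hv => hA v hv l)
  obtain ⟨c, hc, hyD⟩ := H622.cone_relation hG A n₀ (fun j => ρ (Sum.inl j)) y (by
    have h1 : (fun l => ∑ j, A l j • ρ (Sum.inl j) + n₀ l • y) = ρ := funext fun l => (hρA l).symm
    rw [h1]
    exact hG0) hGn
  have hyW : y ∈ W w₀ := Submodule.sum_mem _ fun l _ => Submodule.smul_mem _ _ (hρ l)
  have h0 := fact_finrank hW (phiS s ρ) s P₂ hP₂ (x₀ := ρ (Sum.inl 0)) (y := y)
    (x := fun j => ρ (Sum.inl j)) (u := Fin.cons 1 u) (x_eq ρ u hinc) (u_mem hW hu)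
    (hρ _) hyW (D := D) hD c hc hyD (fun l => by
      rw [phiS_sub, hρA l]
      refine Submodule.add_mem _ (Gr_zero_mem hD (Submodule.sum_mem _ fun j _ =>
        Submodule.smul_mem _ _ (self_mem_Sx (fun j => ρ (Sum.inl j)) j))) ?_
      refine Submodule.smul_mem _ _ ?_
      have h2 := y_pow_mem_Gr (one_mem_Sx (fun j => ρ (Sum.inl j)))
        (mul_mem_Sx (fun j => ρ (Sum.inl j))) hD c hc hyD 1
      rwa [pow_one] at h2)
    (T := T) (n := q) (J := J) hq
  rwa [H82.mId_eq] at h0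

end germ

/-! ### the letters of `Side` -/

section side

open SecC

variable {n : ℕ}

/-- `(ζ, θ)` as one vector, linear -/
def ptL : ZZ n →ₗ[ℝ] (ZI n → ℝ) where
  toFun := pt
  map_add' := by
    intro x y
    funext l
    rcases l with l | l <;> rfl
  map_smul' := by
    intro c x
    funext l
    rcases l with l | l <;> rfl

theorem ptL_apply (x : ZZ n) : ptL x = pt x := rfl

/-- the functional with coefficients `c` -/
def funL (c : ZI n → ℝ) : ZZ n →ₗ[ℝ] ℝ where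
  toFun x := ∑ l, c l * pt x l
  map_add' := by
    intro x y
    rw [← Finset.sum_add_distrib]
    refine Finset.sum_congr rfl fun l _ => ?_
    have h : pt (x + y) l = pt x l + pt y l := congrFun (ptL.map_add x y) l
    rw [h, mul_add]
  map_smul' := by
    intro a x
    rw [RingHom.id_apply, smul_eq_mul, Finset.mul_sum]
    refine Finset.sum_congr rfl fun l _ => ?_
    have h : pt (a • x) l = a * pt x l := congrFun (ptL.map_smul a x) l
    rw [h]
    ring

theorem funL_apply (c : ZI n → ℝ) (x : ZZ n) : funL c x = ∑ l, c l * pt x l := rfl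

theorem funL_single_left (c : ZI n → ℝ) (i : Fin (n + 1)) :
    funL c ((Pi.single i 1, 0) : ZZ n) = c (Sum.inl i) := by
  classical
  rw [funL_apply, Fintype.sum_sum_type]
  simp [pt, Pi.single_apply]

theorem funL_single_right (c : ZI n → ℝ) (i : Fin (n + 1)) :
    funL c ((0, Pi.single i 1) : ZZ n) = c (Sum.inr i) := by
  classical
  rw [funL_apply, Fintype.sum_sum_type]
  simp [pt, Pi.single_apply]

theorem linL_funL (c : ZI n → ℝ) (r : ZZ n) :
    linL (funL c) r = ∑ l, C (c l) * (X l - C (pt r l)) := by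
  have h1 : ∑ l, C (c l) * (X l - C (pt r l)) =
      (∑ l, C (c l) * X l : MvPolynomial (ZI n) ℝ) - C (funL c r) := by
    rw [funL_apply, map_sum, ← Finset.sum_sub_distrib]
    refine Finset.sum_congr rfl fun l _ => ?_
    rw [map_mul]
    ring
  rw [h1, Fintype.sum_sum_type]
  unfold linL
  simp only [funL_single_left, funL_single_right]

variable {A : Finset (ZZ n × ZZ n)} {W D σ v : ℕ} (S : Side n A W D σ v)

/-- the functionals which are constant on the variety of `r` -/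
noncomputable def annL (e : ZZ n × ZZ n) : Submodule ℝ (ZZ n →ₗ[ℝ] ℝ) where
  carrier := {l | linL l e.2 ∈ S.Pr e}
  add_mem' := by
    intro l l' h h'
    have h1 : linL (l + l') e.2 = linL l e.2 + linL l' e.2 := by
      unfold linL
      simp only [LinearMap.add_apply, map_add, add_mul, Finset.sum_add_distrib]
      ring
    rw [Set.mem_ofPred_eq, h1]
    exact Ideal.add_mem _ h h'
  zero_mem' := by
    have h1 : linL (0 : ZZ n →ₗ[ℝ] ℝ) e.2 = 0 := by
      unfold linL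
      simp
    rw [Set.mem_ofPred_eq, h1]
    exact Ideal.zero_mem _
  smul_mem' := by
    intro a l h
    have h1 : linL (a • l) e.2 = C a * linL l e.2 := by
      unfold linL
      simp only [LinearMap.smul_apply, smul_eq_mul, map_mul, mul_sub, mul_add, Finset.mul_sum,
        mul_assoc]
    rw [Set.mem_ofPred_eq, h1]
    exact Ideal.mul_mem_left _ _ h

/-- **double annihilator**: a functional killing `S.V e` is constant on the variety of `r` -/
theorem linL_mem_of_ann (e : ZZ n × ZZ n) (l : ZZ n →ₗ[ℝ] ℝ) (h : ∀ x ∈ S.V e, l x = 0) :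
    linL l e.2 ∈ S.Pr e := by
  have h1 : S.V e = (annL S e).dualCoannihilator := by
    ext x
    rw [Submodule.mem_dualCoannihilator]
    exact Iff.rfl
  have h2 : l ∈ (annL S e).dualCoannihilator.dualAnnihilator := by
    rw [Submodule.mem_dualAnnihilator]
    intro x hx
    exact h x (h1 ▸ hx)
  rw [Subspace.dualCoannihilator_dualAnnihilator_eq] at h2
  exact h2

/-- the flatness hypotheses of case N hold for `S.P e` as soon as `e.1 - e.2 ∈ S.V e` -/
theorem side_flatAt {e : ZZ n × ZZ n} (he : e ∈ A) (hw : e.1 - e.2 ∈ S.V e) :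
    FlatAt (S.P e) ((S.V e).map ptL) (pt e.1) where
  flat := by
    intro c hc
    have h1 : ∀ x ∈ S.V e, funL c x = 0 := fun x hx => hc _ ⟨x, hx, rfl⟩
    have h2 := linL_mem_of_ann S e (funL c) h1
    have h3 : rename (R := ℝ) (Sum.inr : ZI n → HL n) (linL (funL c) e.2) ∈ S.P e := h2
    have h4 : funL c e.1 = funL c e.2 := by
      rw [← sub_eq_zero, ← map_sub]
      exact h1 _ hw
    have h5 : linL (funL c) e.2 = linL (funL c) e.1 := by
      unfold linL
      rw [h4]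
    rw [h5, linL_funL, map_sum] at h3
    simp only [map_mul, map_sub, rename_X, rename_C] at h3
    exact h3
  inc := fun j => S.hinc e he j

/-- **[INST-N], right type**: `ζ` is injective on `S.V e ∋ w`. -/
theorem hmd1_right {e : ZZ n × ZZ n} (he : e ∈ A) (hw : e.1 - e.2 ∈ S.V e)
    (hinj : ∀ x ∈ S.V e, x.1 = 0 → x = 0) :
    ∀ J, ∃ C, ∀ T m, T ≤ m + J →
      finrank ℝ ((H431.Nm (pt e.1) T m).map (Ideal.Quotient.mkₐ ℝ (S.Pr e)).toLinearMap) ≤
        hilbF (Vw ℝ (wt W)) (S.P e) (T + C) := by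
  intro J
  refine ⟨(J + 1) * W, fun T q hq => ?_⟩
  have hF := side_flatAt S he hw
  exact inst_right_gen (isFilt_quot (isFilt_Vw (k := ℝ) (wt (n := n) W) (wt_ne S.hW)) (S.P e))
    ((S.V e).map ptL) (by
      rintro _ ⟨x, hx, rfl⟩ hx0
      rw [hinj x hx (funext fun j => hx0 j), map_zero])
    (pt e.1) (rho (S.P e) (pt e.1)) (fun j => Ideal.Quotient.mkₐ ℝ (S.P e) (X (Sum.inl j)))
    (rho_mem (S.P e) (wt W) (fun _ => rfl) (pt e.1)) (u_mem' (S.P e) (wt W) (fun _ => rfl))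
    hF.hflat hF.hinc (S.Pr e) (fun F hF0 => mem_rPart_of (by
      rwa [phiS_rho] at hF0)) hq

/-- **[INST-N], wrong type**: the kernel of `ζ` on `S.V e ∋ w` is the line of `n₀`, and `G` is
homogeneous with `G (r - s) = 0` on the variety of `r` and `G n₀ ≠ 0`. -/
theorem hmd1_wrong {e : ZZ n × ZZ n} (he : e ∈ A) (hw : e.1 - e.2 ∈ S.V e) (n₀ : ZZ n)
    (hn₀V : n₀ ∈ S.V e) (hn₀ : n₀ ≠ 0) (hn₀z : n₀.1 = 0)
    (hker : ∀ x ∈ S.V e, x.1 = 0 → ∃ c : ℝ, x = c • n₀)
    {D' : ℕ} (hD' : 0 < D') {G : MvPolynomial (ZI n) ℝ} (hG : G.IsHomogeneous D')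
    (hGs : aeval (fun l => (X l - C (pt e.1 l) : MvPolynomial (ZI n) ℝ)) G ∈ S.Pr e)
    (hGn : eval (pt n₀) G ≠ 0) :
    ∀ J, ∃ C, ∀ T m, T ≤ m + J →
      finrank ℝ ((H431.Nm (pt e.1) T m).map (Ideal.Quotient.mkₐ ℝ (S.Pr e)).toLinearMap) ≤
        hilbF (Vw ℝ (wt W)) (S.P e) (T + C) := by
  intro J
  refine ⟨(J + D') * W, fun T q hq => ?_⟩
  have hF := side_flatAt S he hw
  refine inst_wrong_gen (isFilt_quot (isFilt_Vw (k := ℝ) (wt (n := n) W) (wt_ne S.hW)) (S.P e))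
    ((S.V e).map ptL) (pt n₀) ⟨n₀, hn₀V, rfl⟩ (fun h => hn₀ ?_) (fun j => ?_) ?_
    (pt e.1) (rho (S.P e) (pt e.1)) (fun j => Ideal.Quotient.mkₐ ℝ (S.P e) (X (Sum.inl j)))
    (rho_mem (S.P e) (wt W) (fun _ => rfl) (pt e.1)) (u_mem' (S.P e) (wt W) (fun _ => rfl))
    hF.hflat hF.hinc hD' hG ?_ hGn (S.Pr e) (fun F hF0 => mem_rPart_of (by
      rwa [phiS_rho] at hF0)) hq
  · apply pt_injective
    rw [h]
    funext l
    rcases l with l | l <;> rfl
  · exact congrFun hn₀z j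
  · rintro _ ⟨x, hx, rfl⟩ hx0
    obtain ⟨c, hc⟩ := hker x hx (funext fun j => hx0 j)
    refine ⟨c, ?_⟩
    rw [hc, map_smul]
    rfl
  · have h1 : (Ideal.Quotient.mkₐ ℝ (S.P e))
        (rename Sum.inr (aeval (fun l => (X l - C (pt e.1 l) : MvPolynomial (ZI n) ℝ)) G)) = 0 :=
      Ideal.Quotient.eq_zero_iff_mem.2 hGs
    rw [← h1]
    have h2 : (aeval (rho (S.P e) (pt e.1)) : MvPolynomial (ZI n) ℝ →ₐ[ℝ] _) =
        ((Ideal.Quotient.mkₐ ℝ (S.P e)).comp (rename Sum.inr)).comp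
          (aeval fun l => (X l - C (pt e.1 l) : MvPolynomial (ZI n) ℝ)) := by
      ext l
      simp only [AlgHom.comp_apply, aeval_X, map_sub, rename_X, rho, algHom_C]
      rfl
    rw [h2]
    rfl

end side

end Vale.Agent.P054.T2.H82
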