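import Vale.Agent.P054.T2.H930.GlueB1

set_option autoImplicit false
set_option linter.all false

/-!
# P054 / T2: restriction of `ZData` to a smaller set of good edges
-/

namespace Vale.Agent.P054.T2.H82

open MvPolynomial Finset Module
open Vale.Agent.P054.T2.H686 Vale.Agent.P054.T2.H580 Vale.Agent.P054.T2.H930

variable {k : Type*} [Field k] {n : ℕ}
  {E0 E1 E2 : Finset (((Fin (n + 1) → k) × (Fin (n + 1) → k)) ×
      ((Fin (n + 1) → k) × (Fin (n + 1) → k)))}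
  {wt : Crd n ⊕ Pt n → ℕ} {N c₀ c₁ c₂ σ₁ σ₂ : ℕ}

/-- all fields about `E2` are hereditary -/
def zrestrict (Z : ZData k n E0 E1 E2 wt N c₀ c₁ c₂ σ₁ σ₂)
    {A : Finset (((Fin (n + 1) → k) × (Fin (n + 1) → k)) ×
      ((Fin (n + 1) → k) × (Fin (n + 1) → k)))} (hA : A ⊆ E2) :
    ZData k n E0 E1 A wt N c₀ c₁ c₂ σ₁ σ₂ where
  adj := Z.adj
  sub := Z.sub
  sub' := hA.trans Z.sub'
  wt_pos := Z.wt_pos
  wt_le := Z.wt_le
  leaf₁ := Z.leaf₁
  leaf₂ := Z.leaf₂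
  f := Z.f
  h := Z.h
  h' := Z.h'
  f_mem := Z.f_mem
  h_mem := Z.h_mem
  h'_mem := Z.h'_mem
  f_zero := Z.f_zero
  h_zero := Z.h_zero
  h'_zero := Z.h'_zero
  f_ind := fun e he => Z.f_ind e (hA he)
  h_ind := fun e he => Z.h_ind e (hA he)
  h'_ind := fun e he => Z.h'_ind e (hA he)
  good₁ := fun e he => Z.good₁ e (hA he)
  good₂ := fun e he => Z.good₂ e (hA he)
  tight := Z.tight
  le₁ := Z.le₁
  le₂ := Z.le₂

theorem zrestrict_F (Z : ZData k n E0 E1 E2 wt N c₀ c₁ c₂ σ₁ σ₂)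
    {A : Finset (((Fin (n + 1) → k) × (Fin (n + 1) → k)) ×
      ((Fin (n + 1) → k) × (Fin (n + 1) → k)))} (hA : A ⊆ E2) :
    (zrestrict Z hA).F = Z.F := rfl

end Vale.Agent.P054.T2.H82
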