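import Vale.Agent.P054.T2.H82.ABMain
import Vale.Agent.P054.T2.H82.Restrict
import Vale.Agent.P054.T2.H163.CasesP

set_option autoImplicit false
set_option linter.all false

/-!
# P054 / T2: `ABMain` from `Z⁺`, the two sides and `EdgeB` at all edges
-/

namespace Vale.Agent.P054.T2.H82

open MvPolynomial Finset Module
open Vale.Agent.P054.T2.SecC
open Vale.Agent.P054.T2.H686 (mu meet Qf Crd E Ez ABMain IsoB dists Ez_pairs)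
open Vale.Agent.P054.T2.H580 (Vw wh)
open Vale.Agent.P054.T2.H930 (germ Pt edgePt ZData)

variable {n : ℕ}

/-- **`ABMain` from `EdgeB`**: what section B has to deliver is `Z`, the two sides, `K'` on both
sides, and `EdgeB` at every edge of `A`. -/
theorem abMain_of_edgeB {P : Finset (E n)} {B : E n ≃ₗᵢ[ℝ] E n} {β b a₀ a₁ t Wmax : ℕ}
    {G : ℕ → ℕ} {E0 E1 A : Finset (ZZ n × ZZ n)} {N c₀ c₁ c₂ σ₁ σ₂ W D v₁ v₂ : ℕ}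
    (Z : ZData ℝ n E0 E1 A (wh (Crd n) (Pt n) W) N c₀ c₁ c₂ σ₁ σ₂)
    (S₁ : Side n A W D σ₁ v₂) (S₂ : Side n (swp A) W D σ₂ v₁)
    (hK1 : ∀ e ∈ A, ∀ F : MvPolynomial (ZI n) ℝ, rename (fun x => Sum.inr (Sum.inr x)) F ∈
      germ (edgePt e.1 e.2) Z.F ↔ F ∈ S₁.Pr e)
    (hK2 : ∀ e ∈ A, ∀ F : MvPolynomial (ZI n) ℝ, rename (fun x => Sum.inr (Sum.inl x)) F ∈
      germ (edgePt e.1 e.2) Z.F ↔ F ∈ S₂.Pr e.swap)
    (hE : ∀ e ∈ A, EdgeB S₁ S₂ e) (hG : IsoB n P G) (ht : (dists P).card ≤ t)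
    (hA : A ⊆ Ez P B β) (hcard : (Ez P B β).card ≤ b ^ a₀ * A.card) (hWm : W ≤ Wmax)
    (hD : D ≤ b ^ a₁)
    (hfd : ∀ i, (Z.f i).totalDegree ≤ W)
    (hhd : ∀ i, Z.h i ∈ Vw ℝ (wh (Crd n) (Pt n) W) (D * W))
    (hhd' : ∀ i, Z.h' i ∈ Vw ℝ (wh (Crd n) (Pt n) W) (D * W))
    (hc₁ : c₁ + v₁ = 2 * (n + 1)) (hc₂ : c₂ + v₂ = 2 * (n + 1))
    (hc₀ : c₀ + (σ₁ + σ₂) ≤ 2 * n + 1) :
    ABMain n P B β b a₀ a₁ (4 * (n + 1)) (H819.Cx n) t Wmax G := by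
  refine abMain_of_case Z S₁ S₂ hK1 hK2 hA hcard hWm hD
    (H163.hcase_P S₁ S₂ hE ht hG B ?_ ?_) hfd hhd hhd' hc₁ hc₂ hc₀
  · intro e he
    obtain ⟨s, hs, r, hr, rfl, -⟩ := Ez_pairs (hA he)
    exact ⟨s, hs, rfl⟩
  · intro e he
    obtain ⟨s, hs, r, hr, rfl, -⟩ := Ez_pairs (hA he)
    exact ⟨r, hr, rfl⟩

end Vale.Agent.P054.T2.H82
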