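import Vale.Agent.P054.T2.H441.BD
import Vale.Agent.P054.T2.H588.EdgeEz
import Vale.Agent.P054.T2.H981.ProdSide

set_option autoImplicit false
set_option linter.all false

/-!
# P054 / T2, [EDGEB-INST]: `EdgeB` at one good edge from its parts in the letters of `Z⁺`
-/

namespace Vale.Agent.P054.T2.H82

open MvPolynomial Finset Module
open Vale.Agent.P054.T2.SecC
open Vale.Agent.P054.T2.H686 (mu meet Qf Bf Crd E Ez Gm)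
open Vale.Agent.P054.T2.H580 (Vw)
open Vale.Agent.P054.T2.H588 (mat kP)
open Vale.Agent.P054.T2.H441 (js jr chg cD)
open Vale.Agent.P054.T2.H930 (germ Pt edgePt ZData)
open Vale.Agent.P054.T2.H192 (Iso)

variable {n : ℕ}

/-- the vertical fields of `EdgeB` at `e` -/
structure VertB {A : Finset (ZZ n × ZZ n)} {W D σ₁ σ₂ v₁ v₂ : ℕ} (S₁ : Side n A W D σ₁ v₂)
    (S₂ : Side n (swp A) W D σ₂ v₁) (e : ZZ n × ZZ n) : Prop where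
  vertN : e.1 - e.2 ∈ S₁.V e → S₁.V e = S₂.V e.swap → Iso (S₁.V e) →
    (v₁ = 0 ∧ v₂ = 0) ∨ finrank ℝ (S₁.V e) ≤ 2 * σ₁ ∨ finrank ℝ (S₁.V e) ≤ 2 * σ₂
  vertA₁ : e.1 - e.2 ∉ S₁.V e → finrank ℝ (S₁.V e) = n →
    Iso (S₁.V e ⊔ Submodule.span ℝ {e.1 - e.2}) →
    ¬ ZInj (S₁.V e ⊔ Submodule.span ℝ {e.1 - e.2}) → v₂ ≠ 0 →
    finrank ℝ (S₁.V e) ≤ 2 * σ₁ ∨ (e.1 - e.2 ∉ S₂.V e.swap ∧ finrank ℝ (S₂.V e.swap) < n)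
  vertA₂ : e.1 - e.2 ∉ S₂.V e.swap → finrank ℝ (S₂.V e.swap) = n →
    Iso (S₂.V e.swap ⊔ Submodule.span ℝ {e.1 - e.2}) →
    ¬ ZInj (S₂.V e.swap ⊔ Submodule.span ℝ {e.1 - e.2}) → v₁ ≠ 0 →
    finrank ℝ (S₂.V e.swap) ≤ 2 * σ₂ ∨ (e.1 - e.2 ∉ S₁.V e ∧ finrank ℝ (S₁.V e) < n)

/-- **[EDGEB-INST]** -/
theorem edgeB_mk {P : Finset (E n)} {B : E n ≃ₗᵢ[ℝ] E n} (hB : Gm P B) {β : ℕ}
    {E0 E1 E2 A : Finset (ZZ n × ZZ n)} {wt : Crd n ⊕ Pt n → ℕ}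
    {N c₀ c₁ c₂ s₁ s₂ σ₁ σ₂ W D v₁ v₂ : ℕ}
    (Z : ZData ℝ n E0 E1 E2 wt N c₀ c₁ c₂ s₁ s₂)
    (S₁ : Side n A W D σ₁ v₂) (S₂ : Side n (swp A) W D σ₂ v₁) {e : ZZ n × ZZ n} (he : e ∈ A)
    (he2 : e ∈ E2) (heE : e ∈ Ez P B β)
    (hK1 : ∀ F : MvPolynomial (ZI n) ℝ, rename (fun x => Sum.inr (Sum.inr x)) F ∈
      germ (edgePt e.1 e.2) Z.F ↔ F ∈ S₁.Pr e)
    (hK2 : ∀ F : MvPolynomial (ZI n) ℝ, rename (fun x => Sum.inr (Sum.inl x)) F ∈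
      germ (edgePt e.1 e.2) Z.F ↔ F ∈ S₂.Pr e.swap)
    (hst_s : ∀ (D : Derivation (kP P) ℝ ℝ) (h : MvPolynomial (ZI n) ℝ),
      rename (js n) (chg (mat B) h) ∈ germ (edgePt e.1 e.2) Z.F →
      rename (js n) (chg (mat B) (cD D h)) ∈ germ (edgePt e.1 e.2) Z.F)
    (hst_r : ∀ (D : Derivation (kP P) ℝ ℝ) (h : MvPolynomial (ZI n) ℝ),
      rename (jr n) (chg (mat B) h) ∈ germ (edgePt e.1 e.2) Z.F →
      rename (jr n) (chg (mat B) (cD D h)) ∈ germ (edgePt e.1 e.2) Z.F)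
    (hw : (e.1 - e.2 ∈ S₂.V e.swap → S₁.V e ≤ S₂.V e.swap) ∧
      (e.1 - e.2 ∈ S₁.V e → S₂.V e.swap ≤ S₁.V e) ∧ Ste S₁ e)
    (hv : VertB S₁ S₂ e) : EdgeB S₁ S₂ e where
  side₁ := H588.edgeS_Ez hB S₁ he heE fun D h hh => (hK1 _).1 (hst_r D h ((hK1 _).2 hh))
  side₂ := H588.edgeS_Ez_swap hB S₂ he heE fun D h hh => (hK2 _).1 (hst_s D h ((hK2 _).2 hh))
  hperp := (H981.prod_side Z he2 S₁ S₂ hK1 hK2).1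
  hw₁ := hw.1
  hw₂ := hw.2.1
  ste := hw.2.2
  vertN := hv.vertN
  vertA₁ := hv.vertA₁
  vertA₂ := hv.vertA₂

end Vale.Agent.P054.T2.H82
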