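import Vale.Agent.P054.T2.H82.InstSide
import Vale.Agent.P054.T2.H431.Gex
import Vale.Agent.P054.T2.H441.AGeo
import Vale.Agent.P054.T2.H588.Iso

/-!
# P054 / T2, [WT-SIDE]: the isotropic case N as one theorem over `SecC.Side`
-/

namespace Vale.Agent.P054.T2.H82

open scoped BigOperators
open MvPolynomial H431 H580 H441 H163 Module

/-! ### upper bounds of Hilbert functions -/

section upper

variable {K : Type*} [Field K]

theorem hF_comap_le {κ τ : Type*} [Finite κ] (P : Ideal (MvPolynomial τ K))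
    (φ : MvPolynomial κ K →ₐ[K] MvPolynomial τ K) (V' : Submodule K (MvPolynomial τ K))
    [Module.Finite K V'] {T : ℕ} (h : ∀ F : MvPolynomial κ K, F.totalDegree ≤ T → φ F ∈ V') :
    hF (P.comap φ) T ≤ finrank K (V'.map (Ideal.Quotient.mkₐ K P).toLinearMap) := by
  let ι : (MvPolynomial κ K ⧸ P.comap φ) →ₐ[K] (MvPolynomial τ K ⧸ P) :=
    Ideal.quotientMapₐ P φ le_rfl
  have hι : Function.Injective ι.toLinearMap := by
    intro a b hab
    exact Ideal.quotientMap_injective (I := P) (f := φ.toRingHom) hab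
  set U := (restrictTotalDegree κ K T).map (Ideal.Quotient.mkₐ K (P.comap φ)).toLinearMap with hU
  have h1 : finrank K (U.map ι.toLinearMap) = finrank K U :=
    (LinearEquiv.finrank_eq (Submodule.equivMapOfInjective ι.toLinearMap hι U)).symm
  change finrank K U ≤ _
  rw [← h1]
  refine Submodule.finrank_mono ?_
  rintro _ ⟨_, ⟨F, hF, rfl⟩, rfl⟩
  exact ⟨φ F, h F ((mem_restrictTotalDegree _ _ _).1 hF), rfl⟩

/-- the Hilbert function of a germ with `c` independent equations in `c + e` variables -/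
theorem hilbF_germ_le {τ : Type*} [Fintype τ] [DecidableEq τ] (w : τ → ℕ) (hw : ∀ i, w i ≠ 0)
    (p : τ → K) {c e : ℕ} (f : Fin c → MvPolynomial τ K) (hf : ∀ i, eval p (f i) = 0)
    (hind : LinearIndependent K (fun i => H930.grad p (f i))) (hc : c + e = Fintype.card τ) :
    ∃ C : ℕ, ∀ m, hilbF (Vw K w) (H930.germ p f) m ≤ C * (m + 1) ^ e := by
  classical
  have hV := isFilt_Vw (k := K) w hw
  -- degrees
  obtain ⟨d, hd1, hd⟩ : ∃ d : ℕ → ℕ, (∀ j, 1 ≤ d j) ∧
      ∀ j : Fin c, f j ∈ Vw K w (d j) := by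
    have h : ∀ F : MvPolynomial τ K, ∃ d, 1 ≤ d ∧ F ∈ Vw K w d := by
      intro F
      refine ⟨F.support.sup (fun m => Finsupp.weight w m) + 1, Nat.le_add_left _ _, ?_⟩
      rw [mem_Vw]
      intro m hm
      exact (Finset.le_sup (f := fun m => Finsupp.weight w m) hm).trans (Nat.le_succ _)
    choose D hD1 hD2 using h
    refine ⟨fun j => if hj : j < c then D (f ⟨j, hj⟩) else 1, fun j => ?_, fun j => ?_⟩
    · dsimp only
      split_ifs
      · exact hD1 _
      · exact le_rfl
    · have : (j : ℕ) < c := j.2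
      simp only [this, dif_pos]
      exact hD2 _
  refine ⟨(∏ j ∈ Finset.range c, d j) * (1 + c) ^ Fintype.card τ, fun m => ?_⟩
  have h3 := hV.hilbF_primes ({()} : Finset Unit) (fun j _ => H930.germChain p f j) c
    (fun j _ i hi => H930.germChain_isPrime hf hind j)
    (fun j _ i _ => H930.germChain_mono p f (Nat.le_succ j))
    (fun j => if h : j < c then f ⟨j, h⟩ else 0)
    (fun j hj i _ => by
      rw [dif_pos hj]
      exact H930.mem_germChain_succ p f ⟨j, hj⟩)
    (fun j hj i hi => by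
      rw [dif_pos hj]
      exact H930.notMem_germChain hf hind ⟨j, hj⟩)
    d (fun j _ => hd1 j) (fun j hj => by
      rw [dif_pos hj]
      exact hd ⟨j, hj⟩) m m
  have h4 : (⨅ i ∈ ({()} : Finset Unit), H930.germChain p f c) = H930.germ p f := by
    simp only [Finset.mem_singleton, iInf_const, iInf_pos]
    exact H930.germChain_top p f le_rfl
  rw [h4] at h3
  have h5 : finrank K (Vw K w (m + c * m)) ≤ ((1 + c) * (m + 1)) ^ Fintype.card τ := by
    refine (finrank_Vw_le w hw _).trans ?_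
    rw [Fintype.card, ← Finset.prod_const]
    refine Finset.prod_le_prod' fun i _ => ?_
    have := Nat.div_le_self (m + c * m) (w i)
    nlinarith
  have h6 : (m + 1) ^ c * hilbF (Vw K w) (H930.germ p f) m ≤
      (m + 1) ^ c * ((∏ j ∈ Finset.range c, d j) * (1 + c) ^ Fintype.card τ * (m + 1) ^ e) := by
    calc (m + 1) ^ c * hilbF (Vw K w) (H930.germ p f) m
        ≤ (∏ j ∈ Finset.range c, d j) * finrank K (Vw K w (m + c * m)) := h3
      _ ≤ (∏ j ∈ Finset.range c, d j) * ((1 + c) * (m + 1)) ^ Fintype.card τ :=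
          Nat.mul_le_mul_left _ h5
      _ = (m + 1) ^ c * ((∏ j ∈ Finset.range c, d j) * (1 + c) ^ Fintype.card τ * (m + 1) ^ e) := by
          rw [mul_pow]
          have h7 : (m + 1) ^ Fintype.card τ = (m + 1) ^ c * (m + 1) ^ e := by
            rw [← hc, pow_add]
          rw [h7]
          ring
  exact Nat.le_of_mul_le_mul_left h6 (pow_pos (Nat.succ_pos m) c)

end upper

/-! ### the cone polynomial in the coordinates `(ζ, θ)` -/

section cone

open SecC

variable {n : ℕ}

theorem cD_aeval {κ τ : Type*} {k : Type*} [CommRing k] [Algebra k ℝ] (D : Derivation k ℝ ℝ)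
    (ℓ : κ → MvPolynomial τ ℝ) (hℓ : ∀ i, cD D (ℓ i) = 0) (F : MvPolynomial κ ℝ) :
    cD D (aeval ℓ F) = aeval ℓ (cD D F) := by
  induction F using MvPolynomial.induction_on with
  | C a =>
    rw [cD_C, algHom_C, algHom_C]
    exact cD_C D a
  | add a b ha hb => rw [map_add, map_add, map_add, map_add, ha, hb]
  | mul_X a i ha =>
    rw [map_mul, aeval_X, Derivation.leibniz, Derivation.leibniz, hℓ, cD_X, ha, smul_zero,
      smul_zero, zero_add, zero_add, smul_eq_mul, smul_eq_mul, map_mul, aeval_X]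

theorem yP_homog (B : Matrix (Fin (n + 1)) (Fin (n + 1)) ℝ) (b : ZI n) :
    (yP B b).IsHomogeneous 1 := by
  rcases b with i | j
  · show ((X (Sum.inl i) + X (Sum.inr i)) * C (1 / 2) : MvPolynomial (ZI n) ℝ).IsHomogeneous 1
    have h := ((isHomogeneous_X ℝ (Sum.inl i : ZI n)).add (isHomogeneous_X ℝ (Sum.inr i))).mul
      (isHomogeneous_C (ZI n) (1 / 2 : ℝ))
    simpa using h
  · show (∑ i, C (B i j) * ((X (Sum.inr i) - X (Sum.inl i)) * C (1 / 2)) :
      MvPolynomial (ZI n) ℝ).IsHomogeneous 1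
    refine IsHomogeneous.sum _ _ _ fun i _ => ?_
    have h := (isHomogeneous_C (ZI n) (B i j)).mul
      (((isHomogeneous_X ℝ (Sum.inr i : ZI n)).sub (isHomogeneous_X ℝ (Sum.inl i))).mul
      (isHomogeneous_C (ZI n) (1 / 2 : ℝ)))
    simpa using h

/-- a linear form -/
noncomputable def linF {τ : Type*} [Fintype τ] (c : τ → ℝ) : MvPolynomial τ ℝ :=
  ∑ l, C (c l) * X l

theorem linF_homog {τ : Type*} [Fintype τ] (c : τ → ℝ) : (linF c).IsHomogeneous 1 := by
  refine IsHomogeneous.sum _ _ _ fun i _ => ?_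
  have h := (isHomogeneous_C τ (c i)).mul (isHomogeneous_X ℝ i)
  simpa using h

theorem eval_linF {τ : Type*} [Fintype τ] (c : τ → ℝ) (x : τ → ℝ) :
    eval x (linF c) = ∑ l, c l * x l := by
  simp [linF]

/-- shifting the variables of a linear form subtracts its value -/
def Lin1 {τ : Type*} (F : MvPolynomial τ ℝ) : Prop :=
  ∀ s : τ → ℝ, aeval (fun l => (X l - C (s l) : MvPolynomial τ ℝ)) F = F - C (eval s F)

theorem Lin1.add {τ : Type*} {F G : MvPolynomial τ ℝ} (hF : Lin1 F) (hG : Lin1 G) :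
    Lin1 (F + G) := by
  intro s
  rw [map_add, hF s, hG s, map_add, map_add]
  ring

theorem Lin1.zero {τ : Type*} : Lin1 (0 : MvPolynomial τ ℝ) := by
  intro s
  rw [map_zero, map_zero, map_zero, sub_zero]

theorem Lin1.C_mul {τ : Type*} {F : MvPolynomial τ ℝ} (hF : Lin1 F) (c : ℝ) :
    Lin1 (C c * F) := by
  intro s
  rw [map_mul, hF s, algHom_C, map_mul, eval_C, map_mul]
  show C c * _ = _
  ring

theorem Lin1.sum {τ ι : Type*} (t : Finset ι) {F : ι → MvPolynomial τ ℝ}
    (h : ∀ i ∈ t, Lin1 (F i)) : Lin1 (∑ i ∈ t, F i) := by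
  classical
  induction t using Finset.induction_on with
  | empty => rw [Finset.sum_empty]; exact Lin1.zero
  | insert a t ha ih =>
    rw [Finset.sum_insert ha]
    exact (h a (Finset.mem_insert_self _ _)).add
      (ih fun i hi => h i (Finset.mem_insert_of_mem hi))

theorem Lin1.X {τ : Type*} (l : τ) : Lin1 (MvPolynomial.X l : MvPolynomial τ ℝ) := by
  intro s
  rw [aeval_X, eval_X]

theorem lin1_yP (B : Matrix (Fin (n + 1)) (Fin (n + 1)) ℝ) (b : ZI n) : Lin1 (yP B b) := by
  rcases b with i | j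
  · show Lin1 ((MvPolynomial.X (Sum.inl i) + MvPolynomial.X (Sum.inr i)) * C (1 / 2))
    rw [mul_comm]
    exact ((Lin1.X _).add (Lin1.X _)).C_mul _
  · show Lin1 (∑ i, C (B i j) * ((MvPolynomial.X (Sum.inr i) - MvPolynomial.X (Sum.inl i)) *
      C (1 / 2)))
    refine Lin1.sum _ fun i _ => Lin1.C_mul ?_ _
    rw [mul_comm, sub_eq_add_neg]
    refine Lin1.C_mul ((Lin1.X _).add ?_) _
    have h := (Lin1.X (Sum.inl i : ZI n)).C_mul (-1)
    have h1 : (C (-1 : ℝ) * MvPolynomial.X (Sum.inl i : ZI n) : MvPolynomial (ZI n) ℝ) =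
        - MvPolynomial.X (Sum.inl i) := by
      rw [map_neg, map_one]; ring
    rwa [h1] at h

theorem aeval_mem_of_filt {κ : Type*} {R : Type*} [CommRing R] [Algebra ℝ R]
    (V : ℕ → Submodule ℝ R) (hmono : Monotone V) (h1 : (1 : R) ∈ V 0)
    (hmul : ∀ a b u v, u ∈ V a → v ∈ V b → u * v ∈ V (a + b)) (g : κ → R)
    (hg : ∀ i, g i ∈ V 1) {F : MvPolynomial κ ℝ} {T : ℕ} (hF : F.totalDegree ≤ T) :
    aeval g F ∈ V T := by
  classical
  rw [← sum_homogeneousComponent F, map_sum]
  refine Submodule.sum_mem _ fun i hi => ?_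
  have hi' : i ≤ T := by
    rw [Finset.mem_range] at hi
    omega
  exact hmono hi' (aeval_mem_of_graded V h1 hmul g hg (homogeneousComponent_isHomogeneous i F))

/-- dual functionals over a subfield -/
theorem exists_dual_over {τ : Type*} [Fintype τ] (K' : Subfield ℝ) {d : ℕ} (f : Fin d → τ → ℝ)
    (hf : ∀ i l, f i l ∈ K') (hlin : LinearIndependent ℝ f) :
    ∃ c : Fin d → τ → ℝ, (∀ i l, c i l ∈ K') ∧
      ∀ i j, ∑ l, c i l * f j l = if i = j then 1 else 0 := by
  classical
  let f' : Fin d → τ → K' := fun i l => ⟨f i l, hf i l⟩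
  let L : (Fin d → K') →ₗ[K'] (τ → K') := Fintype.linearCombination K' f'
  have hL : LinearMap.ker L = ⊥ := by
    rw [LinearMap.ker_eq_bot']
    intro a ha
    have h1 : ∑ i, (a i : ℝ) • f i = 0 := by
      funext l
      have h2 := congrFun ha l
      simp only [L, Fintype.linearCombination_apply, Finset.sum_apply, Pi.smul_apply,
        smul_eq_mul, Pi.zero_apply] at h2
      have h3 : ((∑ i, a i * f' i l : K') : ℝ) = 0 := by rw [h2]; rfl
      rw [Finset.sum_apply, Pi.zero_apply, ← h3]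
      push_cast
      rfl
    have h4 := Fintype.linearIndependent_iff.1 hlin (fun i => (a i : ℝ)) h1
    funext i
    exact Subtype.ext (h4 i)
  obtain ⟨g, hg⟩ := LinearMap.exists_leftInverse_of_injective L hL
  refine ⟨fun i l => ((g (Pi.single l 1) i : K') : ℝ), fun i l => Subtype.mem _, fun i j => ?_⟩
  have h1 : g (f' j) = Pi.single j 1 := by
    have h2 : L (Pi.single j 1) = f' j := by
      simp [L, Fintype.linearCombination_apply_single]
    rw [← h2]
    exact congrArg (fun h : (Fin d → K') →ₗ[K'] (Fin d → K') => h (Pi.single j 1)) hg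
  have h2 : f' j = ∑ l, f' j l • (Pi.single l 1 : τ → K') := by
    funext l
    rw [Finset.sum_apply]
    simp [Pi.single_apply]
  have h3 : g (f' j) i = ∑ l, f' j l * g (Pi.single l 1) i := by
    conv_lhs => rw [h2]
    rw [map_sum, Finset.sum_apply]
    refine Finset.sum_congr rfl fun l _ => ?_
    rw [map_smul]
    rfl
  rw [h1] at h3
  have h4 := congrArg (Subtype.val) h3
  have h5 : ((∑ l, f' j l * g (Pi.single l 1) i : K') : ℝ) =
      ∑ l, ((g (Pi.single l 1) i : K') : ℝ) * f j l := by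
    push_cast
    refine Finset.sum_congr rfl fun l _ => ?_
    rw [mul_comm]
  rw [← h5, ← h4]
  by_cases hij : i = j
  · subst hij
    simp
  · rw [if_neg hij, Pi.single_eq_of_ne hij]
    rfl

theorem eval_linF_sum {τ : Type*} [Fintype τ] {d : ℕ} (f : Fin d → τ → ℝ) (c : Fin d → τ → ℝ)
    (hc : ∀ i j, ∑ l, c i l * f j l = if i = j then 1 else 0) (a : Fin d → ℝ) (i : Fin d) :
    eval (∑ j, a j • f j) (linF (c i)) = a i := by
  rw [eval_linF]
  have h1 : ∀ l, c i l * (∑ j, a j • f j) l = ∑ j, a j * (c i l * f j l) := by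
    intro l
    rw [Finset.sum_apply, Finset.mul_sum]
    refine Finset.sum_congr rfl fun j _ => ?_
    simp only [Pi.smul_apply, smul_eq_mul]
    ring
  simp only [h1]
  rw [Finset.sum_comm]
  simp only [← Finset.mul_sum, hc]
  simp

theorem pt_sum {d : ℕ} (a : Fin d → ℝ) (f : Fin d → ZZ n) :
    pt (∑ j, a j • f j) = ∑ j, a j • pt (f j) := by
  have h := map_sum ptL (fun j => a j • f j) Finset.univ
  simp only [map_smul] at h
  exact h

/-- **the homogeneous polynomial `G` of the wrong type, in the coordinates `(ζ, θ)`**, from the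
stability of the prime of `r` under the coefficientwise derivations. -/
theorem exists_G_of_ad {k : Type*} [CommRing k] [Algebra k ℝ] (Pr : Ideal (MvPolynomial (ZI n) ℝ))
    {B : Matrix (Fin (n + 1)) (Fin (n + 1)) ℝ} (hB : B * B.transpose = 1)
    (had : ∀ (δ : Derivation k ℝ ℝ) (h : MvPolynomial (ZI n) ℝ), chg B h ∈ Pr →
      chg B (cD δ h) ∈ Pr)
    {C₀ σ d : ℕ} (hPr : ∀ T, hF Pr T ≤ C₀ * (T + 1) ^ σ) (hσ : σ + 2 ≤ d) (s₀ : ZZ n)
    (hs₀ : ∀ l, pt s₀ l ∈ constF k ℝ) (f : Fin d → ZZ n)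
    (hf : ∀ i l, pt (f i) l ∈ constF k ℝ) (hlin : LinearIndependent ℝ f) (a : Fin d → ℝ)
    (ha : ∀ (G : MvPolynomial (Fin d) (constF k ℝ)) (e : ℕ), G.IsHomogeneous e → G ≠ 0 →
      aeval a G ≠ 0) :
    ∃ e, 0 < e ∧ ∃ G : MvPolynomial (ZI n) ℝ, G.IsHomogeneous e ∧
      aeval (fun l => (X l - C (pt (zB B s₀) l) : MvPolynomial (ZI n) ℝ)) G ∈ Pr ∧
      eval (pt (zB B (∑ i, a i • f i))) G ≠ 0 := by
  classical
  have hlin' : LinearIndependent ℝ fun i => pt (f i) := by
    have h1 : LinearMap.ker (ptL (n := n)) = ⊥ :=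
      LinearMap.ker_eq_bot.2 (fun x y h => pt_injective h)
    exact hlin.map' ptL h1
  obtain ⟨c, hc, hcf⟩ := exists_dual_over (constF k ℝ) (fun i => pt (f i)) hf hlin'
  let ℓ : Fin d → MvPolynomial (ZI n) ℝ := fun i => linF (c i)
  have hℓD : ∀ (D : Derivation k ℝ ℝ) (i), cD D (ℓ i) = 0 := by
    intro D i
    show cD D (linF (c i)) = 0
    unfold linF
    rw [map_sum]
    refine Finset.sum_eq_zero fun l _ => ?_
    rw [Derivation.leibniz, cD_C, cD_X, hc i l D, map_zero, smul_zero, smul_zero, add_zero]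
  let ψ : MvPolynomial (Fin d) ℝ →ₐ[ℝ] MvPolynomial (ZI n) ℝ := (chg B).comp (aeval ℓ)
  have hψ : ∀ i, (ψ (X i)).IsHomogeneous 1 := by
    intro i
    show (chg B (aeval ℓ (X i))).IsHomogeneous 1
    rw [aeval_X]
    show (chg B (linF (c i))).IsHomogeneous 1
    unfold linF
    rw [map_sum]
    refine IsHomogeneous.sum _ _ _ fun l _ => ?_
    rw [map_mul, chg_X, algHom_C]
    have h := (isHomogeneous_C (ZI n) (c i l)).mul (yP_homog B l)
    simpa using h
  have hψL : ∀ i, Lin1 (ψ (X i)) := by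
    intro i
    show Lin1 (chg B (aeval ℓ (X i)))
    rw [aeval_X]
    show Lin1 (chg B (linF (c i)))
    unfold linF
    rw [map_sum]
    refine Lin1.sum _ fun l _ => ?_
    rw [map_mul, chg_X, algHom_C]
    exact (lin1_yP B l).C_mul _
  have hψe : ψ = aeval fun i => ψ (X i) := by
    refine MvPolynomial.algHom_ext fun i => ?_
    rw [aeval_X]
  have hdeg : ∀ {F : MvPolynomial (Fin d) ℝ} {T : ℕ}, F.totalDegree ≤ T →
      ψ F ∈ restrictTotalDegree (ZI n) ℝ T := by
    intro F T hF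
    rw [hψe]
    exact aeval_mem_of_filt (fun m => restrictTotalDegree (ZI n) ℝ m)
      (fun a b hab => V_mono hab) (by rw [mem_restrictTotalDegree]; simp)
      (fun a b u v hu hv => V_mul hu hv) (fun i => ψ (X i))
      (fun i => (mem_restrictTotalDegree _ _ _).2 (hψ i).totalDegree_le) hF
  let P : Ideal (MvPolynomial (Fin d) ℝ) := Pr.comap ψ
  obtain ⟨e, he, G, hG, hGP, hGn⟩ := exists_cone_generic (k := k) P
    (fun D h hh => by
      show chg B (aeval ℓ (cD D h)) ∈ Pr
      rw [← cD_aeval D ℓ (hℓD D)]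
      exact had D _ hh)
    (fun i => eval (pt s₀) (ℓ i))
    (fun i D => by
      show D (eval (pt s₀) (linF (c i))) = 0
      rw [eval_linF, map_sum]
      refine Finset.sum_eq_zero fun l _ => ?_
      rw [Derivation.leibniz, hc i l D, hs₀ l D, smul_zero, smul_zero, add_zero])
    (C₀ := C₀) (σ := σ) hσ
    (fun T => by
      refine le_trans ?_ (hPr T)
      have : Module.Finite ℝ (restrictTotalDegree (ZI n) ℝ T) := inferInstance
      exact hF_comap_le Pr ψ (restrictTotalDegree (ZI n) ℝ T) fun F hF => hdeg hF)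
    a ha
  refine ⟨e, he, ψ G, ?_, ?_, ?_⟩
  · rw [hψe]
    have h1 := IsHomogeneous.aeval (g := fun i => ψ (X i)) hG (fun i => hψ i)
    simpa using h1
  · have h1 : aeval (fun l => (X l - C (pt (zB B s₀) l) : MvPolynomial (ZI n) ℝ)) (ψ G) =
        ψ (aeval (fun i => X i - C (eval (pt s₀) (ℓ i))) G) := by
      have h2 : ((aeval fun l => (X l - C (pt (zB B s₀) l) : MvPolynomial (ZI n) ℝ)).comp ψ :
          MvPolynomial (Fin d) ℝ →ₐ[ℝ] _) =
          ψ.comp (aeval (fun i => X i - C (eval (pt s₀) (ℓ i)))) := by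
        refine MvPolynomial.algHom_ext fun i => ?_
        show aeval (fun l => (X l - C (pt (zB B s₀) l) : MvPolynomial (ZI n) ℝ)) (ψ (X i)) =
          ψ (aeval (fun i => X i - C (eval (pt s₀) (ℓ i))) (X i))
        have h3 : eval (pt (zB B s₀)) (ψ (X i)) = eval (pt s₀) (ℓ i) := by
          show eval (pt (zB B s₀)) (chg B (aeval ℓ (X i))) = _
          rw [eval_chg hB, aeval_X]
        have h4 : ψ (C (eval (pt s₀) (ℓ i))) = C (eval (pt s₀) (ℓ i)) := ψ.commutes _
        rw [hψL i, aeval_X, map_sub, h3, h4]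
      exact congrArg (fun h : MvPolynomial (Fin d) ℝ →ₐ[ℝ] _ => h G) h2
    rw [h1]
    exact hGP
  · have h1 : eval (pt (zB B (∑ i, a i • f i))) (ψ G) = eval a G := by
      show eval (pt (zB B (∑ i, a i • f i))) (chg B (aeval ℓ G)) = _
      rw [eval_chg hB, pt_sum]
      have h2 : ∀ G : MvPolynomial (Fin d) ℝ, eval (∑ j, a j • pt (f j)) (aeval ℓ G) =
          eval (fun i => eval (∑ j, a j • pt (f j)) (ℓ i)) G := by
        intro G
        induction G using MvPolynomial.induction_on with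
        | C b => rw [algHom_C]; simp [MvPolynomial.algebraMap_eq]
        | add p q hp hq => rw [map_add, map_add, map_add, hp, hq]
        | mul_X p i hp => rw [map_mul, map_mul, map_mul, hp, aeval_X, eval_X]
      rw [h2]
      congr 2
      funext i
      exact eval_linF_sum (fun i => pt (f i)) c hcf a i
    rw [h1]
    exact hGn

end cone

/-! ### the isotropic case over `Side` -/

section side

open SecC H588

variable {n : ℕ}

theorem zB_eq (B : Matrix (Fin (n + 1)) (Fin (n + 1)) ℝ) (x : ZZ n) :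
    (zB B x).1 = zmap B x := rfl

variable {A : Finset (ZZ n × ZZ n)} {W D σ v : ℕ}

theorem hF_Pr_le (S : Side n A W D σ 0) {e : ZZ n × ZZ n} (he : e ∈ A) :
    ∃ C₀ : ℕ, ∀ T, hF (S.Pr e) T ≤ C₀ * (T + 1) ^ σ := by
  classical
  obtain ⟨C, hC⟩ := hilbF_germ_le (SecC.wt (n := n) W) (SecC.wt_ne S.hW) (hx e.1 e.2) (e := σ) (S.F e.1)
    (S.hzero e he) (S.hind e he) (by
      have h1 := S.hσ
      simp only [Fintype.card_sum, Fintype.card_fin]
      omega)
  refine ⟨C * W ^ σ, fun T => ?_⟩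
  have : Module.Finite ℝ (Vw ℝ (SecC.wt (n := n) W) (T * W)) :=
    (isFilt_Vw (k := ℝ) (SecC.wt (n := n) W) (SecC.wt_ne S.hW)).fin _
  have h1 := hF_comap_le (S.P e) (rename (R := ℝ) (Sum.inr : ZI n → HL n))
    (Vw ℝ (SecC.wt (n := n) W) (T * W)) (T := T) (fun F hF => by
      have h2 : (rename (R := ℝ) (Sum.inr : ZI n → HL n)) =
          aeval fun i => (X (Sum.inr i) : MvPolynomial (HL n) ℝ) := by
        refine MvPolynomial.algHom_ext fun i => ?_
        rw [rename_X, aeval_X]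
      rw [h2]
      exact aeval_mem_of_filt (fun m => Vw ℝ (SecC.wt (n := n) W) (m * W))
        (fun a b hab => Vw_mono _ (Nat.mul_le_mul_right _ hab))
        (by simpa using C_mem_Vw (k := ℝ) (SecC.wt (n := n) W) 1 (0 * W)) (fun a b u v hu hv => by
          rw [add_mul]
          exact mul_mem_Vw _ hu hv) _
        (fun i => by
          rw [one_mul]
          exact X_mem_Vw (k := ℝ) (SecC.wt (n := n) W) (Sum.inr i)) hF)
  refine h1.trans ((hC (T * W)).trans ?_)
  rw [mul_assoc, ← mul_pow]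
  refine Nat.mul_le_mul_left _ (Nat.pow_le_pow_left ?_ _)
  have := S.hW
  nlinarith

/-- **[WT-SIDE]: the isotropic case N (both types) over `Side`.** -/
theorem hmd1_iso (S : Side n A W D σ 0) {e : ZZ n × ZZ n} (he : e ∈ A)
    (hw : e.1 - e.2 ∈ S.V e) {k : Type*} [CommRing k] [Algebra k ℝ]
    {B : Matrix (Fin (n + 1)) (Fin (n + 1)) ℝ} (hB : PG (constF k ℝ) B)
    (had : ∀ (δ : Derivation k ℝ ℝ) (h : MvPolynomial (ZI n) ℝ), chg B h ∈ S.Pr e →
      chg B (cD δ h) ∈ S.Pr e)
    (s₀ : ZZ n) (hs₀ : zB B s₀ = e.1) (hs₀k : InK (constF k ℝ) s₀)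
    (f : Fin (n + 1) → ZZ n) (hf : ∀ i, InK (constF k ℝ) (f i)) (hlin : LinearIndependent ℝ f)
    (hspan : ∀ x, x ∈ S.V e ↔ ∃ b : Fin (n + 1) → ℝ, x = zB B (∑ i, b i • f i))
    (hiso : H192.Iso (S.V e)) (hσ : σ + 2 ≤ n + 1) :
    ∀ J, ∃ C, ∀ T m, T ≤ m + J →
      finrank ℝ ((H431.Nm (pt e.1) T m).map (Ideal.Quotient.mkₐ ℝ (S.Pr e)).toLinearMap) ≤
        hilbF (Vw ℝ (SecC.wt W)) (S.P e) (T + C) := by
  classical
  have hB1 : B * B.transpose = 1 := hB.1
  have hzt : ∀ x : ZZ n, zB B x = ztL B x := fun x => rfl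
  have hQ : ∀ s ∈ Submodule.span ℝ (Set.range f), Qv s = 0 := by
    intro s hs
    obtain ⟨b, rfl⟩ := (Submodule.mem_span_range_iff_exists_fun ℝ).1 hs
    rw [← Qf_ztL hB1, ← hzt]
    exact hiso _ ((hspan _).2 ⟨b, rfl⟩)
  rcases iso_dichotomy hB f hf hlin hQ with h | ⟨a, ha0, haz, hak, haG⟩
  · refine hmd1_right S he hw fun x hx hx0 => ?_
    obtain ⟨b, rfl⟩ := (hspan x).1 hx
    have h1 := h b hx0
    rw [h1]
    simp only [Pi.zero_apply, zero_smul, Finset.sum_const_zero]
    rw [hzt, map_zero]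
  · obtain ⟨C₀, hC₀⟩ := hF_Pr_le S he
    obtain ⟨D', hD', G, hG, hGs, hGn⟩ := exists_G_of_ad (S.Pr e) hB1 had hC₀ hσ s₀
      (fun l => by
        rcases l with l | l
        · exact hs₀k.1 l
        · exact hs₀k.2 l) f
      (fun i l => by
        rcases l with l | l
        · exact (hf i).1 l
        · exact (hf i).2 l) hlin a haG
    refine hmd1_wrong S he hw (zB B (∑ i, a i • f i)) ((hspan _).2 ⟨a, rfl⟩) ?_ haz ?_ hD' hG
      (by rw [hs₀] at hGs; exact hGs) hGn
    · intro h0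
      rw [hzt] at h0
      have h1 : (∑ i, a i • f i) = 0 := ztL_injective hB1 (by rw [h0, map_zero])
      apply ha0
      funext i
      exact Fintype.linearIndependent_iff.1 hlin a h1 i
    · intro x hx hx0
      obtain ⟨b, rfl⟩ := (hspan x).1 hx
      obtain ⟨c, hc⟩ := hak b hx0
      refine ⟨c, ?_⟩
      rw [hzt, hzt, ← map_smul, hc, Finset.smul_sum]
      congr 1
      refine Finset.sum_congr rfl fun i _ => ?_
      rw [Pi.smul_apply, smul_eq_mul, mul_smul]

end side

end Vale.Agent.P054.T2.H82
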