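import Vale.Agent.P054.T2.H981.ProdSide
import Vale.Agent.P054.T2.H819.ZX
import Vale.Agent.P054.T2.H686.Assembly

set_option autoImplicit false
set_option linter.all false

/-!
# P054 / T2: `ABMain` from the data of `Z⁺`, the two sides and the case distinction
-/

namespace Vale.Agent.P054.T2.H82

open MvPolynomial Finset Module
open Vale.Agent.P054.T2.SecC
open Vale.Agent.P054.T2.H686 (mu meet Qf Crd E Ez ABMain)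
open Vale.Agent.P054.T2.H580 (Vw wh)
open Vale.Agent.P054.T2.H930 (germ Pt edgePt ZData)

variable {n : ℕ}

/-- the germ prime of `Z⁺` at an edge -/
noncomputable def Qe {E0 E1 A : Finset (ZZ n × ZZ n)} {wt : Crd n ⊕ Pt n → ℕ}
    {N c₀ c₁ c₂ σ₁ σ₂ : ℕ} (Z : ZData ℝ n E0 E1 A wt N c₀ c₁ c₂ σ₁ σ₂)
    (e : ZZ n × ZZ n) : Ideal (MvPolynomial (Crd n ⊕ (Pt n ⊕ Pt n)) ℝ) :=
  germ (edgePt e.1 e.2) Z.F

theorem exists_primes {E0 E1 A : Finset (ZZ n × ZZ n)} {N c₀ c₁ c₂ σ₁ σ₂ W D v₁ v₂ : ℕ}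
    (Z : ZData ℝ n E0 E1 A (wh (Crd n) (Pt n) W) N c₀ c₁ c₂ σ₁ σ₂) (hW : 1 ≤ W) (hD : 1 ≤ D)
    (hfd : ∀ i, (Z.f i).totalDegree ≤ W)
    (hhd : ∀ i, Z.h i ∈ Vw ℝ (wh (Crd n) (Pt n) W) (D * W))
    (hhd' : ∀ i, Z.h' i ∈ Vw ℝ (wh (Crd n) (Pt n) W) (D * W))
    (hc₁ : c₁ + v₁ = 2 * (n + 1)) (hc₂ : c₂ + v₂ = 2 * (n + 1))
    (hc₀ : c₀ + (σ₁ + σ₂) ≤ 2 * n + 1) :
    ∃ X : Finset (Ideal (MvPolynomial (Crd n ⊕ (Pt n ⊕ Pt n)) ℝ)), (∀ e ∈ A, Qe Z e ∈ X) ∧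
      X.card ≤ H819.Cx n * D ^ (4 * (n + 1)) * W ^ (2 * n + 1 - (σ₁ + σ₂)) := by
  classical
  have h1 := H819.card_Z_primes Z (W := W) (D := D) (v₁ := v₁) (v₂ := v₂) hW hD rfl hfd hhd
    hhd' hc₁ hc₂
  refine ⟨@Finset.image _ _ (Classical.decEq _) (fun e => germ (edgePt e.1 e.2) Z.F) A, ?_, ?_⟩
  · intro e he
    rw [Finset.mem_image]
    exact ⟨e, he, rfl⟩
  · have hinst : ∀ (i₁ i₂ : DecidableEq (Ideal (MvPolynomial (Crd n ⊕ (Pt n ⊕ Pt n)) ℝ))),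
        (@Finset.image _ _ i₁ (fun e : ZZ n × ZZ n => germ (edgePt e.1 e.2) Z.F) A).card =
        (@Finset.image _ _ i₂ (fun e : ZZ n × ZZ n => germ (edgePt e.1 e.2) Z.F) A).card := by
      intro i₁ i₂
      obtain rfl : i₁ = i₂ := Subsingleton.elim _ _
      rfl
    have h2 : (@Finset.image _ _ (Classical.decEq _)
        (fun e : ZZ n × ZZ n => germ (edgePt e.1 e.2) Z.F) A).card ≤
        H819.Cx n * (W ^ c₀ * D ^ (c₁ + c₂)) := (hinst _ _).trans_le h1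
    refine h2.trans ?_
    have h3 : W ^ c₀ ≤ W ^ (2 * n + 1 - (σ₁ + σ₂)) :=
      Nat.pow_le_pow_right hW (by omega)
    have h4 : D ^ (c₁ + c₂) ≤ D ^ (4 * (n + 1)) := Nat.pow_le_pow_right hD (by omega)
    calc H819.Cx n * (W ^ c₀ * D ^ (c₁ + c₂))
        ≤ H819.Cx n * (W ^ (2 * n + 1 - (σ₁ + σ₂)) * D ^ (4 * (n + 1))) :=
          Nat.mul_le_mul_left _ (Nat.mul_le_mul h3 h4)
      _ = H819.Cx n * D ^ (4 * (n + 1)) * W ^ (2 * n + 1 - (σ₁ + σ₂)) := by ring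

/-- **`ABMain` from the output of section B** (`A` = the set `E2` of `Z`, all edges of `A` good) -/
theorem abMain_of_case {P : Finset (E n)} {B : E n ≃ₗᵢ[ℝ] E n} {β b a₀ a₁ t Wmax : ℕ} {G : ℕ → ℕ}
    {E0 E1 A : Finset (ZZ n × ZZ n)} {N c₀ c₁ c₂ σ₁ σ₂ W D v₁ v₂ : ℕ}
    (Z : ZData ℝ n E0 E1 A (wh (Crd n) (Pt n) W) N c₀ c₁ c₂ σ₁ σ₂)
    (S₁ : Side n A W D σ₁ v₂) (S₂ : Side n (swp A) W D σ₂ v₁)
    (hK1 : ∀ e ∈ A, ∀ F : MvPolynomial (ZI n) ℝ, rename (fun x => Sum.inr (Sum.inr x)) F ∈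
      germ (edgePt e.1 e.2) Z.F ↔ F ∈ S₁.Pr e)
    (hK2 : ∀ e ∈ A, ∀ F : MvPolynomial (ZI n) ℝ, rename (fun x => Sum.inr (Sum.inl x)) F ∈
      germ (edgePt e.1 e.2) Z.F ↔ F ∈ S₂.Pr e.swap)
    (hA : A ⊆ Ez P B β) (hcard : (Ez P B β).card ≤ b ^ a₀ * A.card) (hWm : W ≤ Wmax)
    (hD : D ≤ b ^ a₁)
    (hcase : ∀ e ∈ A, S₁.Cnt (8 * t) (G σ₁) e ∨ S₂.Cnt (8 * t) (G σ₂) e.swap ∨ SecC.BB S₁ S₂ e)
    (hfd : ∀ i, (Z.f i).totalDegree ≤ W)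
    (hhd : ∀ i, Z.h i ∈ Vw ℝ (wh (Crd n) (Pt n) W) (D * W))
    (hhd' : ∀ i, Z.h' i ∈ Vw ℝ (wh (Crd n) (Pt n) W) (D * W))
    (hc₁ : c₁ + v₁ = 2 * (n + 1)) (hc₂ : c₂ + v₂ = 2 * (n + 1))
    (hc₀ : c₀ + (σ₁ + σ₂) ≤ 2 * n + 1) :
    ABMain n P B β b a₀ a₁ (4 * (n + 1)) (H819.Cx n) t Wmax G := by
  refine ⟨A, W, D, σ₁, σ₂, v₁, v₂, S₁, S₂, Ideal (MvPolynomial (Crd n ⊕ (Pt n ⊕ Pt n)) ℝ),
    Qe Z, hA, hcard, hWm, hD, ?_, ?_, hcase,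
    fun _ _ => exists_primes Z S₁.hW S₁.hD hfd hhd hhd' hc₁ hc₂ hc₀⟩
  · intro e he e' he' h
    unfold Qe at h
    ext F
    rw [← hK1 e he F, ← hK1 e' he' F, h]
  · intro e he e' he' h
    unfold Qe at h
    ext F
    rw [← hK2 e he F, ← hK2 e' he' F, h]

end Vale.Agent.P054.T2.H82
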