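import Vale.Agent.P054.T2.H428.EdgeB
import Vale.Agent.P054.T2.H701.GoodSide
import Vale.Agent.P054.T2.H395.SideJets
import Vale.Agent.P054.T2.H82.InstSide

/-!
# P054 / T2, [c-N]: case N with `v = 0`: countable from `s`, or `s` is bad for the prime of `r`
-/

namespace Vale.Agent.P054.T2.H82

open scoped BigOperators
open MvPolynomial H431 H580 H441 H163 Module SecC
open H192 (Iso)
open H455 (Sep)

variable {n : ℕ} {A : Finset (ZZ n × ZZ n)} {W D σ v : ℕ}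

/-- the comparison `hmd1` of `H701.good_side` in case N, both types -/
theorem hmd1_caseN (S : Side n A W D σ v) (hv : v = 0) {e : ZZ n × ZZ n} (he : e ∈ A)
    (hE : EdgeS S e) (hw : e.1 - e.2 ∈ S.V e) (hiso : Iso (S.V e)) :
    ∀ J, ∃ C, ∀ T m, T ≤ m + J →
      finrank ℝ ((H431.Nm (pt e.1) T m).map (Ideal.Quotient.mkₐ ℝ (S.Pr e)).toLinearMap) ≤
        hilbF (Vw ℝ (SecC.wt W)) (S.P e) (T + C) := by
  have hfin : finrank ℝ (S.V e) ≤ n + 1 := hiso.finrank_le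
  rcases Nat.lt_or_ge (finrank ℝ (S.V e)) (n + 1) with h | h
  · exact hmd1_right S he hw (hE.geni hfin (Or.inl h))
  · rcases hE.genw hiso (le_antisymm hfin h) with h1 | ⟨n₀, hn₀V, hn₀, hn₀z, hker, hG⟩
    · exact hmd1_right S he hw h1
    · obtain ⟨D', G, hD', hG1, hG2, hG3⟩ := hG hv
      exact hmd1_wrong S he hw n₀ hn₀V hn₀ hn₀z hker hD' hG1 hG2 hG3

/-- **[c-N]** -/
theorem caseN (S : Side n A W D σ v) (hv : v = 0) {e : ZZ n × ZZ n} (he : e ∈ A)
    (hE : EdgeS S e) (hw : e.1 - e.2 ∈ S.V e) (hiso : Iso (S.V e)) {N G : ℕ}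
    (hsep : Sep (fun e' : ZZ n × ZZ n => pt e'.2) N (S.cls e)) :
    S.Cnt N G e ∨ Bad (S.Pr e) (pt e.1) := by
  by_cases hb : Bad (S.Pr e) (pt e.1)
  · exact Or.inr hb
  · exact Or.inl (H701.good_side S hv e N G hb (hmd1_caseN S hv he hE hw hiso)
      (H395.hjet S e) hsep)

end Vale.Agent.P054.T2.H82
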