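import Vale.Agent.P054.T2.H431.WPrime
import Vale.Agent.P054.T2.H580.Filt

/-!
# P054 / T2, (D2): polynomials of high order at `s` on the class, without field degrees

`R` the coordinate ring of a leaf-hat germ (a quotient of `k[u, r]`), `W n` the image of the
polynomials of weighted degree `≤ n`.  The coordinates of `r - s` lie in
`Gr (Sx x) y D 1` with `x j = x₀ * u j`, `u j ∈ W 1`, `x₀, y ∈ W w₀`.
A polynomial `F(r)` of degree `≤ T` and of order `≥ T - J` at `s` has image in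
`x₀ ^ (T - J - D) * W (T + (J + D) * w₀)`.
-/

namespace Vale.Agent.P054.T2.H82

open scoped BigOperators
open MvPolynomial H431 H580

variable {k R : Type*} [Field k] [CommRing R] [Algebra k R]

/-- `x₀ ^ e * W n` -/
noncomputable def xW (W : ℕ → Submodule k R) (x₀ : R) (e n : ℕ) : Submodule k R :=
  (W n).map (LinearMap.mulLeft k (x₀ ^ e))

theorem mem_xW {W : ℕ → Submodule k R} {x₀ : R} {e n : ℕ} {v : R} :
    v ∈ xW W x₀ e n ↔ ∃ v' ∈ W n, x₀ ^ e * v' = v := Iff.rfl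

variable {W : ℕ → Submodule k R} (hW : IsFilt W)
include hW

theorem mul_mem_xW {x₀ : R} {e e' n n' : ℕ} {v v' : R} (hv : v ∈ xW W x₀ e n)
    (hv' : v' ∈ xW W x₀ e' n') : v * v' ∈ xW W x₀ (e + e') (n + n') := by
  obtain ⟨a, ha, rfl⟩ := hv
  obtain ⟨b, hb, rfl⟩ := hv'
  refine ⟨a * b, hW.mul ha hb, ?_⟩
  simp only [LinearMap.mulLeft_apply]
  ring

theorem Sx_le_xW {ι : Type*} {x₀ : R} {x u : ι → R} (hx : ∀ i, x i = x₀ * u i)
    (hu : ∀ i, u i ∈ W 1) (T : ℕ) : Sx k x T ≤ xW W x₀ T T := by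
  intro v hv
  obtain ⟨F, hF, rfl⟩ := mem_Sx.1 hv
  refine aeval_mem_of_graded (fun m => xW W x₀ m m) ⟨1, hW.one, by simp⟩
    (fun a b u v hu hv => mul_mem_xW hW hu hv) x (fun i => ⟨u i, hu i, ?_⟩) hF
  simp [hx i]

/-- lowering the power of `x₀` -/
theorem xW_lower {x₀ : R} {w₀ : ℕ} (hx₀ : x₀ ∈ W w₀) {e e' n n' : ℕ} (he : e' ≤ e)
    (hn : n + (e - e') * w₀ ≤ n') : xW W x₀ e n ≤ xW W x₀ e' n' := by
  rintro _ ⟨v, hv, rfl⟩
  refine ⟨x₀ ^ (e - e') * v, hW.mono ?_ (hW.mul (hW.pow_mem hx₀ (e - e')) hv), ?_⟩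
  · omega
  · simp only [LinearMap.mulLeft_apply]
    rw [← mul_assoc, ← pow_add]
    congr 2
    omega

/-- the pieces `Gr` -/
theorem Gr_le_xW {ι : Type*} {x₀ y : R} {x u : ι → R} (hx : ∀ i, x i = x₀ * u i)
    (hu : ∀ i, u i ∈ W 1) {w₀ : ℕ} (hx₀ : x₀ ∈ W w₀) (hy : y ∈ W w₀) {D T J i : ℕ} (hi : i ≤ J) :
    Gr (Sx k x) y D (T - i) ≤ xW W x₀ (T - J - D) (T + (J + D) * w₀) := by
  rintro _ ⟨v, hv, hv0, rfl⟩
  refine Submodule.sum_mem _ fun a ha => ?_
  have haD := Finset.mem_range.1 ha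
  by_cases ham : a ≤ T - i
  · obtain ⟨v', hv', hvv⟩ := Sx_le_xW hW hx hu _ (hv a ham)
    rw [← hvv]
    simp only [LinearMap.mulLeft_apply]
    have h1 : y ^ a * v' ∈ W (a * w₀ + (T - i - a)) := hW.mul (hW.pow_mem hy a) hv'
    have h2 : x₀ ^ (T - i - a) * (y ^ a * v') ∈
        xW W x₀ (T - i - a) (a * w₀ + (T - i - a)) := ⟨_, h1, rfl⟩
    have h3 : y ^ a * (x₀ ^ (T - i - a) * v') = x₀ ^ (T - i - a) * (y ^ a * v') := by ring
    rw [h3]
    refine xW_lower hW hx₀ (by omega) ?_ h2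
    have h4 : T - i - a - (T - J - D) ≤ J + D - a := by omega
    have h5 : (T - i - a - (T - J - D)) * w₀ ≤ (J + D - a) * w₀ := Nat.mul_le_mul_right _ h4
    have h6 : a * w₀ + (J + D - a) * w₀ = (J + D) * w₀ := by
      rw [← add_mul]
      congr 1
      omega
    omega
  · rw [hv0 a (by omega)]
    simp

/-- **(D2), membership form.** -/
theorem fact_mem {ι κ : Type*} (φ : MvPolynomial κ k →ₐ[k] R) (s : κ → k)
    {x₀ y : R} {x u : ι → R} (hx : ∀ i, x i = x₀ * u i) (hu : ∀ i, u i ∈ W 1) {w₀ : ℕ}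
    (hx₀ : x₀ ∈ W w₀) (hy : y ∈ W w₀) {D : ℕ} (hD : 0 < D) (c : ℕ → R)
    (hc : ∀ j, j < D → c j ∈ Sx k x (D - j)) (hyD : y ^ D = ∑ j ∈ Finset.range D, y ^ j * c j)
    (hz : ∀ l, φ (X l - C (s l)) ∈ Gr (Sx k x) y D 1)
    {T n J : ℕ} (hnJ : T ≤ n + J) {F : MvPolynomial κ k} (hT : F.totalDegree ≤ T)
    (hF : F ∈ mId s ^ n) : φ F ∈ xW W x₀ (T - J - D) (T + (J + D) * w₀) := by
  obtain ⟨u', hu1, hu2, h3⟩ := exists_sum_Gr φ s (one_mem_Sx x) (mul_mem_Sx x) hD c hc hyD hz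
    hnJ hT hF
  rw [h3]
  refine Submodule.sum_mem _ fun i hi => ?_
  have hiJ : i ≤ J := by
    rw [Finset.mem_range] at hi
    omega
  by_cases hiT : i ≤ T
  · exact Gr_le_xW hW hx hu hx₀ hy hiJ (hu1 i hiT)
  · rw [hu2 i (by omega)]
    exact Submodule.zero_mem _

theorem finrank_xW_le (x₀ : R) (e n : ℕ) :
    Module.finrank k (xW W x₀ e n) ≤ Module.finrank k (W n) := by
  have := hW.fin n
  exact Submodule.finrank_map_le _ _

theorem finite_xW (x₀ : R) (e n : ℕ) : Module.Finite k (xW W x₀ e n) := by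
  have := hW.fin n
  unfold xW
  infer_instance

/-- **(D2), dimension form.** `P₂ ⊇ ker φ`. -/
theorem fact_finrank {ι κ : Type*} (φ : MvPolynomial κ k →ₐ[k] R) (s : κ → k)
    (P₂ : Ideal (MvPolynomial κ k)) (hP₂ : ∀ F, φ F = 0 → F ∈ P₂)
    {x₀ y : R} {x u : ι → R} (hx : ∀ i, x i = x₀ * u i) (hu : ∀ i, u i ∈ W 1) {w₀ : ℕ}
    (hx₀ : x₀ ∈ W w₀) (hy : y ∈ W w₀) {D : ℕ} (hD : 0 < D) (c : ℕ → R)
    (hc : ∀ j, j < D → c j ∈ Sx k x (D - j)) (hyD : y ^ D = ∑ j ∈ Finset.range D, y ^ j * c j)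
    (hz : ∀ l, φ (X l - C (s l)) ∈ Gr (Sx k x) y D 1) {T n J : ℕ} (hnJ : T ≤ n + J) :
    Module.finrank k ((restrictTotalDegree κ k T ⊓ (mId s ^ n).restrictScalars k).map
      (Ideal.Quotient.mkₐ k P₂).toLinearMap) ≤ Module.finrank k (W (T + (J + D) * w₀)) := by
  set U := restrictTotalDegree κ k T ⊓ (mId s ^ n).restrictScalars k with hU
  have hfin := finite_xW hW x₀ (T - J - D) (T + (J + D) * w₀)
  have h1 : U.map φ.toLinearMap ≤ xW W x₀ (T - J - D) (T + (J + D) * w₀) := by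
    rintro _ ⟨F, ⟨hF1, hF2⟩, rfl⟩
    exact fact_mem hW φ s hx hu hx₀ hy hD c hc hyD hz hnJ
      ((mem_restrictTotalDegree _ _ _).1 hF1) hF2
  have h2 : Module.Finite k (U.map φ.toLinearMap) :=
    Submodule.finiteDimensional_of_le h1
  refine le_trans ?_ ((Submodule.finrank_mono h1).trans (finrank_xW_le hW _ _ _))
  -- the quotient map factors through `φ`
  let g : MvPolynomial κ k →ₗ[k] (MvPolynomial κ k ⧸ P₂) := (Ideal.Quotient.mkₐ k P₂).toLinearMap
  have hker : LinearMap.ker φ.toLinearMap ≤ LinearMap.ker g := by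
    intro F hF
    rw [LinearMap.mem_ker] at hF ⊢
    exact Ideal.Quotient.eq_zero_iff_mem.2 (hP₂ F hF)
  let ρ : LinearMap.range φ.toLinearMap →ₗ[k] (MvPolynomial κ k ⧸ P₂) :=
    ((LinearMap.ker φ.toLinearMap).liftQ g hker) ∘ₗ
      (φ.toLinearMap.quotKerEquivRange.symm : LinearMap.range φ.toLinearMap →ₗ[k] _)
  have hρ : ∀ F : MvPolynomial κ k, ρ ⟨φ F, F, rfl⟩ = g F := by
    intro F
    have h3 : φ.toLinearMap.quotKerEquivRange.symm ⟨φ F, F, rfl⟩ =
        Submodule.Quotient.mk F := by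
      rw [LinearEquiv.symm_apply_eq]
      rfl
    change ((LinearMap.ker φ.toLinearMap).liftQ g hker)
      (φ.toLinearMap.quotKerEquivRange.symm ⟨φ F, F, rfl⟩) = g F
    rw [h3]
    rfl
  let U' : Submodule k (LinearMap.range φ.toLinearMap) :=
    U.map φ.toLinearMap.rangeRestrict
  have h4 : U.map g = U'.map ρ := by
    ext v
    constructor
    · rintro ⟨F, hF, rfl⟩
      exact ⟨_, ⟨F, hF, rfl⟩, hρ F⟩
    · rintro ⟨_, ⟨F, hF, rfl⟩, rfl⟩
      exact ⟨F, hF, (hρ F).symm⟩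
  have h5 : U'.map (LinearMap.range φ.toLinearMap).subtype = U.map φ.toLinearMap := by
    rw [← Submodule.map_comp]
    rfl
  have h6 : Module.finrank k U' = Module.finrank k (U.map φ.toLinearMap) := by
    rw [← h5]
    exact (LinearEquiv.finrank_eq (Submodule.equivMapOfInjective _
      (Submodule.injective_subtype _) U'))
  have h7 : Module.Finite k U' := by
    have h8 : Module.Finite k (U'.map (LinearMap.range φ.toLinearMap).subtype) := by
      rw [h5]; exact h2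
    exact Module.Finite.equiv (Submodule.equivMapOfInjective _
      (Submodule.injective_subtype _) U').symm
  change Module.finrank k (U.map g) ≤ _
  rw [h4, ← h6]
  exact Submodule.finrank_map_le _ _

end Vale.Agent.P054.T2.H82
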