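import Vale.Agent.P054.T2.H163.Hilb

/-!
# P054 / T2, (MD2): the Hilbert function of `P` and the polynomials of high order at `s`
-/

namespace Vale.Agent.P054.T2.H82

open MvPolynomial H441 H163 Module

variable {K : Type*} [Field K] {σ : Type*}

/-- truncation at `s` inside the ideal -/
theorem exists_trunc [Finite σ] (P : Ideal (MvPolynomial σ K)) : ∃ J₀ : ℕ, ∀ (s : σ → K) (k : ℕ),
    ∀ A ∈ P, ∃ A' ∈ P, A' ∈ restrictTotalDegree σ K (k + J₀) ∧ A - A' ∈ m s ^ (k + 1) := by
  classical
  obtain ⟨S, hS⟩ := (isNoetherianRing_iff_ideal_fg _).1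
    (inferInstance : IsNoetherianRing (MvPolynomial σ K)) P
  refine ⟨S.sup totalDegree, fun s k A hA => ?_⟩
  rw [← hS] at hA
  obtain ⟨c, hc⟩ := Submodule.mem_span_finset'.1 hA
  choose c' hc1 hc2 using fun a : S => taylor s k (c a)
  refine ⟨∑ a : S, c' a • (a : MvPolynomial σ K), ?_, ?_, ?_⟩
  · refine Submodule.sum_mem _ fun a _ => ?_
    rw [smul_eq_mul]
    refine Ideal.mul_mem_left _ _ ?_
    rw [← hS]
    exact Ideal.subset_span a.2
  · refine Submodule.sum_mem _ fun a _ => ?_
    rw [smul_eq_mul]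
    refine V_mul (hc1 a) ?_
    rw [mem_restrictTotalDegree]
    exact Finset.le_sup (f := totalDegree) a.2
  · rw [← hc, ← Finset.sum_sub_distrib]
    refine Submodule.sum_mem _ fun a _ => ?_
    rw [← sub_smul, smul_eq_mul]
    exact Ideal.mul_mem_right _ _ (hc2 a)

theorem finite_quot_pow [Finite σ] (I : Ideal (MvPolynomial σ K)) (s : σ → K) (n : ℕ)
    (h : m s ^ n ≤ I) : Module.Finite K (MvPolynomial σ K ⧸ I) := by
  rcases n with _ | k
  · have htop : I = ⊤ := by
      rw [pow_zero, Ideal.one_eq_top, top_le_iff] at h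
      exact h
    subst htop
    have : Subsingleton (MvPolynomial σ K ⧸ (⊤ : Ideal (MvPolynomial σ K))) :=
      Ideal.Quotient.subsingleton_iff.2 rfl
    infer_instance
  · have hfin : Module.Finite K
        ((restrictTotalDegree σ K k).map (Ideal.Quotient.mkₐ K I).toLinearMap) := inferInstance
    have htop : (restrictTotalDegree σ K k).map (Ideal.Quotient.mkₐ K I).toLinearMap = ⊤ := by
      rw [eq_top_iff]
      rintro x -
      obtain ⟨F, rfl⟩ := Ideal.Quotient.mk_surjective x
      obtain ⟨G, hG, hFG⟩ := taylor s k F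
      refine ⟨G, hG, ?_⟩
      change Ideal.Quotient.mk I G = Ideal.Quotient.mk I F
      rw [eq_comm, Ideal.Quotient.eq]
      exact h hFG
    rw [htop] at hfin
    exact Module.Finite.equiv (Submodule.topEquiv (R := K) (M := MvPolynomial σ K ⧸ I))

/-- **(MD2)** -/
theorem md2 [Finite σ] (P : Ideal (MvPolynomial σ K)) : ∃ J₀ : ℕ, ∀ (s : σ → K) (J : ℕ), J₀ ≤ J →
    ∀ T : ℕ, hF P T ≤ finrank K (MvPolynomial σ K ⧸ (P ⊔ m s ^ (T - J))) +
      finrank K ((restrictTotalDegree σ K T ⊓ (m s ^ (T - J)).restrictScalars K).map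
        (Ideal.Quotient.mkₐ K P).toLinearMap) := by
  classical
  obtain ⟨J₀, hJ₀⟩ := exists_trunc P
  refine ⟨J₀ , fun s J hJ T => ?_⟩
  set n := T - J with hn
  set I := P ⊔ m s ^ n with hI
  have hPI : P ≤ I := le_sup_left
  have hfinI : Module.Finite K (MvPolynomial σ K ⧸ I) := finite_quot_pow I s n le_sup_right
  let π : (MvPolynomial σ K ⧸ P) →ₗ[K] (MvPolynomial σ K ⧸ I) :=
    (Ideal.Quotient.factorₐ K hPI).toLinearMap
  set B := (restrictTotalDegree σ K T).map (Ideal.Quotient.mkₐ K P).toLinearMap with hB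
  have hBfin : Module.Finite K B := inferInstance
  set U := (restrictTotalDegree σ K T ⊓ (m s ^ n).restrictScalars K).map
    (Ideal.Quotient.mkₐ K P).toLinearMap with hU
  have hUB : U ≤ B := Submodule.map_mono inf_le_left
  have hUfin : Module.Finite K U := Submodule.finiteDimensional_of_le hUB
  let ψ : B →ₗ[K] (MvPolynomial σ K ⧸ I) := π.domRestrict B
  have h1 := LinearMap.finrank_range_add_finrank_ker ψ
  have h2 : finrank K (LinearMap.range ψ) ≤ finrank K (MvPolynomial σ K ⧸ I) :=
    Submodule.finrank_le _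
  have h3 : finrank K (LinearMap.ker ψ) ≤ finrank K U := by
    have h4 : (LinearMap.ker ψ).map B.subtype ≤ U := by
      rintro _ ⟨⟨x, hx⟩, hker, rfl⟩
      obtain ⟨F, hF, rfl⟩ := hx
      have h5 : F ∈ I := by
        have h6 : Ideal.Quotient.mk I F = 0 := hker
        exact Ideal.Quotient.eq_zero_iff_mem.1 h6
      obtain ⟨A, hA, R, hR, hAR⟩ := Submodule.mem_sup.1 h5
      rcases hn0 : n with _ | k
      · refine ⟨F, ⟨hF, ?_⟩, rfl⟩
        rw [hn0]
        simp
      · obtain ⟨A', hA', hAd, hAm⟩ := hJ₀ s k A hA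
        refine ⟨F - A', ⟨?_, ?_⟩, ?_⟩
        · refine sub_mem hF (V_mono ?_ hAd)
          omega
        · change F - A' ∈ m s ^ n
          rw [← hAR]
          have h7 : A + R - A' = (A - A') + R := by ring
          rw [h7]
          refine add_mem ?_ hR
          rw [hn0]
          exact hAm
        · change Ideal.Quotient.mk P (F - A') = Ideal.Quotient.mk P F
          rw [Ideal.Quotient.eq]
          have h8 : F - A' - F = -A' := by ring
          rw [h8]
          exact neg_mem hA'
    have h9 : finrank K ((LinearMap.ker ψ).map B.subtype) = finrank K (LinearMap.ker ψ) :=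
      (LinearEquiv.finrank_eq (Submodule.equivMapOfInjective _ B.injective_subtype _)).symm
    rw [← h9]
    exact Submodule.finrank_mono h4
  change finrank K B ≤ _
  omega

end Vale.Agent.P054.T2.H82
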