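import Vale.Agent.P054.T2.H82.Fact
import Vale.Agent.P054.T2.H82.MD2
import Vale.Agent.P054.T2.H622.Cone
import Vale.Agent.P054.T2.H930.Germ2

/-!
# P054 / T2, [C4]: case N in coordinates (right and wrong type)

`r = (ζ, θ)` has the index type `Rc n = Fin (n+1) ⊕ Fin (n+1)`; `V` isotropic (this is not used)
subspace of `K^(2n+2)` with `r - s ∈ V` on the class; `ρ l` = image of `r_l - s_l` in the coordinate
ring `R` of the leaf-hat germ.
-/

namespace Vale.Agent.P054.T2.H82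

open scoped BigOperators
open MvPolynomial H431 H580 H441 H163 Module

variable {K : Type*} [Field K] {n : ℕ}

/-- index type of the coordinates `(ζ, θ)` of `r` -/
abbrev Rc (n : ℕ) := Fin (n + 1) ⊕ Fin (n + 1)

/-! ### linear algebra -/

theorem exists_coords_right (V : Submodule K (Rc n → K))
    (hinj : ∀ v ∈ V, (∀ j, v (Sum.inl j) = 0) → v = 0) :
    ∃ A : Rc n → Fin (n + 1) → K, ∀ v ∈ V, ∀ l, v l = ∑ j, A l j * v (Sum.inl j) := by
  classical
  let Z : V →ₗ[K] (Fin (n + 1) → K) :=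
    { toFun := fun v j => (v : Rc n → K) (Sum.inl j)
      map_add' := fun _ _ => rfl
      map_smul' := fun _ _ => rfl }
  have hZ : LinearMap.ker Z = ⊥ := by
    rw [LinearMap.ker_eq_bot']
    intro v hv
    exact Subtype.ext (hinj v.1 v.2 fun j => congrFun hv j)
  obtain ⟨g, hg⟩ := LinearMap.exists_leftInverse_of_injective Z hZ
  refine ⟨fun l j => (g (Pi.single j 1) : Rc n → K) l, fun v hv l => ?_⟩
  have h1 : g (Z ⟨v, hv⟩) = ⟨v, hv⟩ := congrArg (fun f : V →ₗ[K] V => f ⟨v, hv⟩) hg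
  have h2 : Z ⟨v, hv⟩ = ∑ j, v (Sum.inl j) • (Pi.single j 1 : Fin (n + 1) → K) := by
    ext j
    rw [Finset.sum_apply]
    simp only [Pi.smul_apply, Pi.single_apply, smul_eq_mul, mul_ite, mul_one, mul_zero,
      Finset.sum_ite_eq, Finset.mem_univ, if_true]
    rfl
  have h3 := congrArg (fun v : V => (v : Rc n → K) l) h1
  rw [h2] at h3
  simp only [map_sum, map_smul, Submodule.coe_sum, Submodule.coe_smul, Finset.sum_apply,
    Pi.smul_apply, smul_eq_mul] at h3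
  rw [← h3]
  exact Finset.sum_congr rfl fun j _ => mul_comm _ _

theorem exists_coords_wrong (V : Submodule K (Rc n → K)) (n₀ : Rc n → K) (hn₀V : n₀ ∈ V)
    (hn₀ : n₀ ≠ 0) (hn₀z : ∀ j, n₀ (Sum.inl j) = 0)
    (hker : ∀ v ∈ V, (∀ j, v (Sum.inl j) = 0) → ∃ c : K, v = c • n₀) :
    ∃ (A : Rc n → Fin (n + 1) → K) (η : Rc n → K), ∀ v ∈ V, ∀ l,
      v l = ∑ j, A l j * v (Sum.inl j) + n₀ l * ∑ l', η l' * v l' := by
  classical
  obtain ⟨l₀, hl₀⟩ := Function.ne_iff.1 hn₀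
  let η : Rc n → K := fun l => if l = l₀ then (n₀ l₀)⁻¹ else 0
  have hη : ∀ v : Rc n → K, ∑ l', η l' * v l' = (n₀ l₀)⁻¹ * v l₀ := by
    intro v
    simp [η]
  let Z : V →ₗ[K] (Fin (n + 1) → K) × K :=
    { toFun := fun v => (fun j => (v : Rc n → K) (Sum.inl j), (n₀ l₀)⁻¹ * (v : Rc n → K) l₀)
      map_add' := fun v w => by
        ext
        · rfl
        · simp [mul_add]
      map_smul' := fun c v => by
        ext
        · rfl
        · simp; ring }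
  have hZ : LinearMap.ker Z = ⊥ := by
    rw [LinearMap.ker_eq_bot']
    intro v hv
    obtain ⟨c, hc⟩ := hker v.1 v.2 fun j => congrFun (congrArg Prod.fst hv) j
    have h1 : (n₀ l₀)⁻¹ * (v : Rc n → K) l₀ = 0 := congrArg Prod.snd hv
    rw [hc] at h1
    have h2 : c = 0 := by
      simp only [Pi.smul_apply, smul_eq_mul] at h1
      rw [mul_left_comm, inv_mul_cancel₀ hl₀, mul_one] at h1
      exact h1
    apply Subtype.ext
    rw [hc, h2, zero_smul]
    rfl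
  obtain ⟨g, hg⟩ := LinearMap.exists_leftInverse_of_injective Z hZ
  have hgv : ∀ v (hv : v ∈ V), g (Z ⟨v, hv⟩) = ⟨v, hv⟩ := fun v hv =>
    congrArg (fun f : V →ₗ[K] V => f ⟨v, hv⟩) hg
  have hg0 : (g (0, 1) : Rc n → K) = n₀ := by
    have h1 : Z ⟨n₀, hn₀V⟩ = (0, 1) := by
      ext j
      · exact hn₀z j
      · exact inv_mul_cancel₀ hl₀
    have h2 := hgv n₀ hn₀V
    rw [h1] at h2
    rw [h2]
  refine ⟨fun l j => (g (Pi.single j 1, 0) : Rc n → K) l, η, fun v hv l => ?_⟩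
  have h2 : Z ⟨v, hv⟩ = ∑ j, v (Sum.inl j) • ((Pi.single j 1, 0) : (Fin (n + 1) → K) × K) +
      ((n₀ l₀)⁻¹ * v l₀) • ((0, 1) : (Fin (n + 1) → K) × K) := by
    ext j
    · simp only [Prod.fst_add, Prod.fst_sum, Prod.smul_fst, Finset.sum_apply, Pi.add_apply,
        Pi.smul_apply, Pi.single_apply, smul_eq_mul, mul_ite, mul_one, mul_zero,
        Finset.sum_ite_eq, Finset.mem_univ, if_true, Pi.zero_apply, add_zero]
      rfl
    · simp only [Prod.snd_add, Prod.snd_sum, Prod.smul_snd, Finset.sum_const_zero,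
        zero_add, smul_eq_mul, mul_one, mul_zero]
      rfl
  have h3 := congrArg (fun v : V => (v : Rc n → K) l) (hgv v hv)
  rw [h2] at h3
  simp only [map_add, map_sum, map_smul, Submodule.coe_add, Submodule.coe_sum,
    Submodule.coe_smul, Finset.sum_apply, Pi.add_apply, Pi.smul_apply, smul_eq_mul] at h3
  rw [hg0] at h3
  rw [hη, ← h3]
  congr 1
  · exact Finset.sum_congr rfl fun j _ => mul_comm _ _
  · ring

/-! ### the germ side -/

section germ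

variable {R : Type*} [CommRing R] [Algebra K R] {W : ℕ → Submodule K R} (hW : IsFilt W)

/-- the homomorphism `r_l ↦ ρ l + s_l` -/
noncomputable def phiS (s : Rc n → K) (ρ : Rc n → R) : MvPolynomial (Rc n) K →ₐ[K] R :=
  aeval fun l => ρ l + algebraMap K R (s l)

theorem phiS_sub (s : Rc n → K) (ρ : Rc n → R) (l : Rc n) :
    phiS s ρ (X l - C (s l)) = ρ l := by
  rw [phiS, map_sub, aeval_X, algHom_C]
  ring

/-- the elements `x_j = ρ (ζ_j)` and `u` with `u₀ = 1` -/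
theorem x_eq (ρ : Rc n → R) (u : Fin n → R)
    (hinc : ∀ j : Fin n, ρ (Sum.inl j.succ) = u j * ρ (Sum.inl 0)) (j : Fin (n + 1)) :
    ρ (Sum.inl j) = ρ (Sum.inl 0) * (Fin.cons 1 u : Fin (n + 1) → R) j := by
  refine Fin.cases ?_ (fun i => ?_) j
  · simp
  · rw [hinc i, Fin.cons_succ]
    ring


theorem flat_apply (V : Submodule K (Rc n → K)) (ρ : Rc n → R)
    (hflat : ∀ c : Rc n → K, (∀ v ∈ V, ∑ l, c l * v l = 0) → ∑ l, c l • ρ l = 0)
    (l : Rc n) (a : Fin (n + 1) → K) (b : K) (η : Rc n → K)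
    (h : ∀ v ∈ V, v l = ∑ j, a j * v (Sum.inl j) + b * ∑ l', η l' * v l') :
    ρ l = ∑ j, a j • ρ (Sum.inl j) + b • ∑ l', η l' • ρ l' := by
  classical
  have h1 := hflat (fun l' => (if l' = l then 1 else 0) -
    Sum.elim a (fun _ => 0) l' - b * η l') (fun v hv => by
      simp only [sub_mul, Finset.sum_sub_distrib]
      have h2 : ∑ x, (if x = l then 1 else 0) * v x = v l := by simp
      have h3 : ∑ x, Sum.elim a (fun _ => 0) x * v x = ∑ j, a j * v (Sum.inl j) := by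
        rw [Fintype.sum_sum_type]; simp
      have h4 : ∑ x, b * η x * v x = b * ∑ l', η l' * v l' := by
        rw [Finset.mul_sum]
        exact Finset.sum_congr rfl fun x _ => by ring
      rw [h2, h3, h4, h v hv]
      ring)
  simp only [sub_smul, Finset.sum_sub_distrib] at h1
  have h2 : ∑ x, (if x = l then (1 : K) else 0) • ρ x = ρ l := by simp
  have h3 : ∑ x, Sum.elim a (fun _ => 0) x • ρ x = ∑ j, a j • ρ (Sum.inl j) := by
    rw [Fintype.sum_sum_type]; simp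
  have h4 : ∑ x, (b * η x) • ρ x = b • ∑ l', η l' • ρ l' := by
    rw [Finset.smul_sum]
    exact Finset.sum_congr rfl fun x _ => by rw [mul_smul]
  rw [h2, h3, h4] at h1
  have h5 : ρ l = (ρ l - ∑ j, a j • ρ (Sum.inl j) - b • ∑ l', η l' • ρ l') +
      (∑ j, a j • ρ (Sum.inl j) + b • ∑ l', η l' • ρ l') := by ring
  rw [h5, h1, zero_add]

theorem mId_eq {σ : Type*} [Fintype σ] [DecidableEq σ] (s : σ → K) : mId s = m s :=
  (H930.mx_eq_span s).symm

include hW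

theorem u_mem {u : Fin n → R} (hu : ∀ j, u j ∈ W 1) (j : Fin (n + 1)) :
    (Fin.cons 1 u : Fin (n + 1) → R) j ∈ W 1 := by
  refine Fin.cases ?_ (fun i => ?_) j
  · simpa using hW.mono (Nat.zero_le 1) hW.one
  · simpa using hu i

/-- **right type** -/
theorem inst_right (V : Submodule K (Rc n → K))
    (hinj : ∀ v ∈ V, (∀ j, v (Sum.inl j) = 0) → v = 0) (s : Rc n → K) (ρ : Rc n → R)
    (u : Fin n → R) {w₀ : ℕ} (hρ : ∀ l, ρ l ∈ W w₀) (hu : ∀ j, u j ∈ W 1)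
    (hflat : ∀ c : Rc n → K, (∀ v ∈ V, ∑ l, c l * v l = 0) → ∑ l, c l • ρ l = 0)
    (hinc : ∀ j : Fin n, ρ (Sum.inl j.succ) = u j * ρ (Sum.inl 0))
    (P₂ : Ideal (MvPolynomial (Rc n) K)) (hP₂ : ∀ F, phiS s ρ F = 0 → F ∈ P₂) (J T : ℕ) :
    finrank K ((restrictTotalDegree (Rc n) K T ⊓ (m s ^ (T - J)).restrictScalars K).map
      (Ideal.Quotient.mkₐ K P₂).toLinearMap) ≤ finrank K (W (T + (J + 1) * w₀)) := by
  classical
  obtain ⟨A, hA⟩ := exists_coords_right V hinj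
  have hρA : ∀ l, ρ l = ∑ j, A l j • ρ (Sum.inl j) := by
    intro l
    have h1 := flat_apply V ρ hflat l (A l) 0 0 (fun v hv => by rw [hA v hv l]; simp)
    rw [h1]
    simp
  have h0 := fact_finrank hW (phiS s ρ) s P₂ hP₂ (x₀ := ρ (Sum.inl 0)) (y := 0)
    (x := fun j => ρ (Sum.inl j)) (u := Fin.cons 1 u) (x_eq ρ u hinc) (u_mem hW hu)
    (hρ _) (Submodule.zero_mem _) (D := 1) Nat.one_pos (fun _ => 0)
    (fun j _ => Submodule.zero_mem _) (by simp) (fun l => by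
      rw [phiS_sub]
      refine Gr_zero_mem Nat.one_pos ?_
      rw [hρA l]
      exact Submodule.sum_mem _ fun j _ => Submodule.smul_mem _ _
        (self_mem_Sx (fun j => ρ (Sum.inl j)) j))
    (T := T) (n := T - J) (J := J) (by omega)
  rwa [mId_eq] at h0

/-- **wrong type**: `G` is a homogeneous polynomial vanishing at `r - s` with `G n₀ ≠ 0`. -/
theorem inst_wrong (V : Submodule K (Rc n → K)) (n₀ : Rc n → K) (hn₀V : n₀ ∈ V)
    (hn₀ : n₀ ≠ 0) (hn₀z : ∀ j, n₀ (Sum.inl j) = 0)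
    (hker : ∀ v ∈ V, (∀ j, v (Sum.inl j) = 0) → ∃ c : K, v = c • n₀) (s : Rc n → K)
    (ρ : Rc n → R) (u : Fin n → R) {w₀ : ℕ} (hρ : ∀ l, ρ l ∈ W w₀) (hu : ∀ j, u j ∈ W 1)
    (hflat : ∀ c : Rc n → K, (∀ v ∈ V, ∑ l, c l * v l = 0) → ∑ l, c l • ρ l = 0)
    (hinc : ∀ j : Fin n, ρ (Sum.inl j.succ) = u j * ρ (Sum.inl 0))
    {D : ℕ} (hD : 0 < D) {G : MvPolynomial (Rc n) K} (hG : G.IsHomogeneous D)
    (hG0 : aeval ρ G = 0) (hGn : eval n₀ G ≠ 0)
    (P₂ : Ideal (MvPolynomial (Rc n) K)) (hP₂ : ∀ F, phiS s ρ F = 0 → F ∈ P₂) (J T : ℕ) :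
    finrank K ((restrictTotalDegree (Rc n) K T ⊓ (m s ^ (T - J)).restrictScalars K).map
      (Ideal.Quotient.mkₐ K P₂).toLinearMap) ≤ finrank K (W (T + (J + D) * w₀)) := by
  classical
  obtain ⟨A, η, hA⟩ := exists_coords_wrong V n₀ hn₀V hn₀ hn₀z hker
  set y : R := ∑ l', η l' • ρ l' with hy
  have hρA : ∀ l, ρ l = ∑ j, A l j • ρ (Sum.inl j) + n₀ l • y := fun l =>
    flat_apply V ρ hflat l (A l) (n₀ l) η (fun v hv => hA v hv l)
  obtain ⟨c, hc, hyD⟩ := H622.cone_relation hG A n₀ (fun j => ρ (Sum.inl j)) y (by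
    have h1 : (fun l => ∑ j, A l j • ρ (Sum.inl j) + n₀ l • y) = ρ := funext fun l => (hρA l).symm
    rw [h1]
    exact hG0) hGn
  have hyW : y ∈ W w₀ := Submodule.sum_mem _ fun l _ => Submodule.smul_mem _ _ (hρ l)
  have h0 := fact_finrank hW (phiS s ρ) s P₂ hP₂ (x₀ := ρ (Sum.inl 0)) (y := y)
    (x := fun j => ρ (Sum.inl j)) (u := Fin.cons 1 u) (x_eq ρ u hinc) (u_mem hW hu)
    (hρ _) hyW (D := D) hD c hc hyD (fun l => by
      rw [phiS_sub, hρA l]
      refine Submodule.add_mem _ (Gr_zero_mem hD (Submodule.sum_mem _ fun j _ =>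
        Submodule.smul_mem _ _ (self_mem_Sx (fun j => ρ (Sum.inl j)) j))) ?_
      refine Submodule.smul_mem _ _ ?_
      have h2 := y_pow_mem_Gr (one_mem_Sx (fun j => ρ (Sum.inl j)))
        (mul_mem_Sx (fun j => ρ (Sum.inl j))) hD c hc hyD 1
      rwa [pow_one] at h2)
    (T := T) (n := T - J) (J := J) (by omega)
  rwa [mId_eq] at h0

end germ

/-! ### the leaf-hat prime -/

/-- the image filtration in a quotient -/
theorem isFilt_quot {R : Type*} [CommRing R] [Algebra K R] {V : ℕ → Submodule K R}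
    (hV : IsFilt V) (I : Ideal R) :
    IsFilt fun n => (V n).map (Ideal.Quotient.mkₐ K I).toLinearMap where
  mono := fun _ _ h => Submodule.map_mono (hV.mono h)
  one := ⟨1, hV.one, map_one (Ideal.Quotient.mkₐ K I)⟩
  mul := by
    rintro a b _ _ ⟨x, hx, rfl⟩ ⟨y, hy, rfl⟩
    exact ⟨x * y, hV.mul hx hy, map_mul (Ideal.Quotient.mkₐ K I) x y⟩
  fin := fun n => by
    have := hV.fin n
    infer_instance

/-- `P₂`: the prime of the `r`-part of the leaf-hat germ -/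
noncomputable abbrev rPart (P : Ideal (MvPolynomial (Fin n ⊕ Rc n) K)) :
    Ideal (MvPolynomial (Rc n) K) :=
  P.comap (rename Sum.inr : MvPolynomial (Rc n) K →ₐ[K] MvPolynomial (Fin n ⊕ Rc n) K)

/-- the hypotheses on the class in the isotropic case, in terms of the leaf-hat prime -/
structure FlatAt (P : Ideal (MvPolynomial (Fin n ⊕ Rc n) K)) (V : Submodule K (Rc n → K))
    (s : Rc n → K) : Prop where
  flat : ∀ c : Rc n → K, (∀ v ∈ V, ∑ l, c l * v l = 0) →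
    ∑ l, C (c l) * (X (Sum.inr l) - C (s l)) ∈ P
  inc : ∀ j : Fin n, (X (Sum.inr (Sum.inl j.succ)) - C (s (Sum.inl j.succ))) -
    X (Sum.inl j) * (X (Sum.inr (Sum.inl 0)) - C (s (Sum.inl 0))) ∈ P

theorem mem_rPart_of {P : Ideal (MvPolynomial (Fin n ⊕ Rc n) K)} {F : MvPolynomial (Rc n) K}
    (h : Ideal.Quotient.mkₐ K P (rename Sum.inr F) = 0) : F ∈ rPart P :=
  Ideal.mem_comap.2 (Ideal.Quotient.eq_zero_iff_mem.1 h)

section hat

variable (P : Ideal (MvPolynomial (Fin n ⊕ Rc n) K)) (w : Fin n ⊕ Rc n → ℕ) {w₀ : ℕ}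

/-- image of `r_l - s_l` -/
noncomputable def rho (s : Rc n → K) (l : Rc n) : MvPolynomial (Fin n ⊕ Rc n) K ⧸ P :=
  Ideal.Quotient.mkₐ K P (X (Sum.inr l) - C (s l))

theorem rho_mem (hw' : ∀ l, w (Sum.inr l) = w₀) (s : Rc n → K) (l : Rc n) :
    rho P s l ∈ (Vw K w w₀).map (Ideal.Quotient.mkₐ K P).toLinearMap := by
  refine ⟨X (Sum.inr l) - C (s l), sub_mem ?_ (C_mem_Vw _ _ _), rfl⟩
  rw [← hw' l]
  exact X_mem_Vw _ _

theorem u_mem' (hw : ∀ i, w (Sum.inl i) = 1) (j : Fin n) :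
    Ideal.Quotient.mkₐ K P (X (Sum.inl j)) ∈
      (Vw K w 1).map (Ideal.Quotient.mkₐ K P).toLinearMap := by
  refine ⟨X (Sum.inl j), ?_, rfl⟩
  rw [← hw j]
  exact X_mem_Vw _ _

theorem phiS_rho (s : Rc n → K) (F : MvPolynomial (Rc n) K) :
    phiS s (rho P s) F = Ideal.Quotient.mkₐ K P (rename Sum.inr F) := by
  have h : phiS s (rho P s) = (Ideal.Quotient.mkₐ K P).comp (rename Sum.inr) := by
    ext l
    rw [phiS, aeval_X, AlgHom.comp_apply, rename_X, rho, map_sub]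
    have h1 : Ideal.Quotient.mkₐ K P (C (s l)) = algebraMap K _ (s l) := rfl
    rw [h1]
    ring
  rw [h]
  rfl

variable {P}

theorem FlatAt.hflat {V : Submodule K (Rc n → K)} {s : Rc n → K} (h : FlatAt P V s)
    (c : Rc n → K) (hc : ∀ v ∈ V, ∑ l, c l * v l = 0) : ∑ l, c l • rho P s l = 0 := by
  have h1 := h.flat c hc
  have h2 : Ideal.Quotient.mkₐ K P (∑ l, C (c l) * (X (Sum.inr l) - C (s l))) = 0 :=
    Ideal.Quotient.eq_zero_iff_mem.2 h1
  rw [← h2, map_sum]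
  refine Finset.sum_congr rfl fun l _ => ?_
  rw [← smul_eq_C_mul, map_smul, rho]

theorem FlatAt.hinc {V : Submodule K (Rc n → K)} {s : Rc n → K} (h : FlatAt P V s) (j : Fin n) :
    rho P s (Sum.inl j.succ) =
      Ideal.Quotient.mkₐ K P (X (Sum.inl j)) * rho P s (Sum.inl 0) := by
  have h1 : Ideal.Quotient.mkₐ K P ((X (Sum.inr (Sum.inl j.succ)) - C (s (Sum.inl j.succ))) -
    X (Sum.inl j) * (X (Sum.inr (Sum.inl 0)) - C (s (Sum.inl 0)))) = 0 :=
    Ideal.Quotient.eq_zero_iff_mem.2 (h.inc j)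
  rw [map_sub, map_mul, sub_eq_zero] at h1
  exact h1

/-- **[C4], right type.** -/
theorem hfact_right (P : Ideal (MvPolynomial (Fin n ⊕ Rc n) K)) (w : Fin n ⊕ Rc n → ℕ) {w₀ : ℕ}
    (hw : ∀ i, w (Sum.inl i) = 1) (hw' : ∀ l, w (Sum.inr l) = w₀) (hw₀ : w₀ ≠ 0) :
    ∃ J₀ : ℕ, ∀ (s : Rc n → K) (V : Submodule K (Rc n → K)), FlatAt P V s →
      (∀ v ∈ V, (∀ j, v (Sum.inl j) = 0) → v = 0) → ∀ J, J₀ ≤ J → ∀ T,
      hF (rPart P) T ≤ finrank K (MvPolynomial (Rc n) K ⧸ (rPart P ⊔ m s ^ (T - J))) +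
        hilbF (Vw K w) P (T + (J + 1) * w₀) := by
  obtain ⟨J₀, hJ₀⟩ := md2 (rPart P)
  refine ⟨J₀, fun s V hV hinj J hJ T => (hJ₀ s J hJ T).trans (Nat.add_le_add_left ?_ _)⟩
  have hwne : ∀ i, w i ≠ 0 := by
    rintro (i | l)
    · rw [hw]; exact one_ne_zero
    · rw [hw']; exact hw₀
  exact inst_right (isFilt_quot (isFilt_Vw (k := K) w hwne) P) V hinj s (rho P s)
    (fun j => Ideal.Quotient.mkₐ K P (X (Sum.inl j))) (rho_mem P w hw' s) (u_mem' P w hw)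
    hV.hflat hV.hinc (rPart P) (fun F hF0 => mem_rPart_of (by
      rwa [phiS_rho] at hF0)) J T

/-- **[C4], wrong type.** -/
theorem hfact_wrong (P : Ideal (MvPolynomial (Fin n ⊕ Rc n) K)) (w : Fin n ⊕ Rc n → ℕ) {w₀ : ℕ}
    (hw : ∀ i, w (Sum.inl i) = 1) (hw' : ∀ l, w (Sum.inr l) = w₀) (hw₀ : w₀ ≠ 0) :
    ∃ J₀ : ℕ, ∀ (s : Rc n → K) (V : Submodule K (Rc n → K)), FlatAt P V s →
      ∀ n₀ : Rc n → K, n₀ ∈ V → n₀ ≠ 0 → (∀ j, n₀ (Sum.inl j) = 0) →
      (∀ v ∈ V, (∀ j, v (Sum.inl j) = 0) → ∃ c : K, v = c • n₀) →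
      ∀ (D : ℕ), 0 < D → ∀ G : MvPolynomial (Rc n) K, G.IsHomogeneous D →
      aeval (fun l => X l - C (s l)) G ∈ rPart P → eval n₀ G ≠ 0 → ∀ J, J₀ ≤ J → ∀ T,
      hF (rPart P) T ≤ finrank K (MvPolynomial (Rc n) K ⧸ (rPart P ⊔ m s ^ (T - J))) +
        hilbF (Vw K w) P (T + (J + D) * w₀) := by
  obtain ⟨J₀, hJ₀⟩ := md2 (rPart P)
  refine ⟨J₀, fun s V hV n₀ hn₀V hn₀ hn₀z hker D hD G hG hGs hGn J hJ T =>
    (hJ₀ s J hJ T).trans (Nat.add_le_add_left ?_ _)⟩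
  have hwne : ∀ i, w i ≠ 0 := by
    rintro (i | l)
    · rw [hw]; exact one_ne_zero
    · rw [hw']; exact hw₀
  refine inst_wrong (isFilt_quot (isFilt_Vw (k := K) w hwne) P) V n₀ hn₀V hn₀ hn₀z hker s
    (rho P s) (fun j => Ideal.Quotient.mkₐ K P (X (Sum.inl j))) (rho_mem P w hw' s)
    (u_mem' P w hw) hV.hflat hV.hinc hD hG ?_ hGn (rPart P) (fun F hF0 => mem_rPart_of (by
      rwa [phiS_rho] at hF0)) J T
  have h1 : (Ideal.Quotient.mkₐ K P) (rename Sum.inr (aeval (fun l => X l - C (s l)) G)) = 0 :=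
    Ideal.Quotient.eq_zero_iff_mem.2 hGs
  rw [← h1]
  have h2 : (aeval (rho P s) : MvPolynomial (Rc n) K →ₐ[K] _) =
      ((Ideal.Quotient.mkₐ K P).comp (rename Sum.inr)).comp
        (aeval fun l => (X l - C (s l) : MvPolynomial (Rc n) K)) := by
    ext l
    simp only [AlgHom.comp_apply, aeval_X, map_sub, rename_X, rho, algHom_C]
    rfl
  rw [h2]
  rfl

end hat

end Vale.Agent.P054.T2.H82
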