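import Vale.Agent.P054.T2.H715.Prod3
import Vale.Agent.P054.T2.H622.Vert

set_option autoImplicit false
set_option linter.all false

/-!
# P054 / T2, [VERT-A']: `w ⟂ V₁` when `V₂ + k w` is a maximal isotropic space, `w ∉ V₂`
-/

namespace Vale.Agent.P054.T2.H82

open Module
open Vale.Agent.P054.T2.H192 (W Bf_comm Bf_add_right Bf_add_left Bf_smul_left Bf_self orth mem_orth
  mem_orth' finrank_W finrank_orth Iso finrank_sup_span_le finrank_sup_span)
open Vale.Agent.P054.T2.H686 (Bf Qf Bf_smul_right Qf_add Qf_smul)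
open Vale.Agent.P054.T2.H715
open Vale.Agent.P054.T2.H622 (cst ext comp_mem mem_ext_of_comp)

section lin

variable {k : Type*} [Field k] {n : ℕ}

/-- the hyperbolic partner of `w` modulo `V` -/
theorem exists_partner (h2 : (2 : k) ≠ 0) {V : Submodule k (W k n)} (hd : finrank k V = n)
    {w : W k n} (hw : w ∉ V) (hI : Iso (V ⊔ Submodule.span k {w})) :
    ∃ w' : W k n, w' ∈ orth V ∧ Qf w' = 0 ∧ Bf w w' = 1 ∧
      ∀ y ∈ orth V, Bf w y = 0 → Bf w' y = 0 → y ∈ V := by
  have hwN : w ∈ V ⊔ Submodule.span k {w} :=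
    Submodule.mem_sup_right (Submodule.mem_span_singleton_self w)
  have hVN : V ≤ V ⊔ Submodule.span k {w} := le_sup_left
  have hN : finrank k ↥(V ⊔ Submodule.span k {w}) = n + 1 := by
    rw [finrank_sup_span V hw, hd]
  have hNo := hI.eq_orth hN
  have hQw : Qf w = 0 := hI w hwN
  have hBww : Bf w w = 0 := by rw [Bf_self, hQw, mul_zero]
  have hVw : ∀ b ∈ V, Bf b w = 0 := fun b hb => hI.Bf_eq_zero (hVN hb) hwN
  have hperp : ∀ y ∈ orth V, Bf w y = 0 → y ∈ V ⊔ Submodule.span k {w} := by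
    intro y hy h
    rw [hNo, mem_orth]
    intro b hb
    obtain ⟨a, ha, c, hc, rfl⟩ := Submodule.mem_sup.1 hb
    obtain ⟨t, rfl⟩ := Submodule.mem_span_singleton.1 hc
    rw [Bf_add_left, Bf_smul_left, h, mul_zero, add_zero]
    exact mem_orth.1 hy a ha
  obtain ⟨u, hu, hwu⟩ : ∃ u ∈ orth V, Bf w u ≠ 0 := by
    by_contra hcon
    push Not at hcon
    have h1 : orth V ≤ V ⊔ Submodule.span k {w} := fun y hy => hperp y hy (hcon y hy)
    have h3 := Submodule.finrank_mono h1
    have h4 := finrank_orth V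
    omega
  obtain ⟨u', hu'o, hwu'⟩ : ∃ u' ∈ orth V, Bf w u' = 1 :=
    ⟨(Bf w u)⁻¹ • u, (orth V).smul_mem _ hu, by rw [Bf_smul_right, inv_mul_cancel₀ hwu]⟩
  have hwo : w ∈ orth V := mem_orth.2 hVw
  have hw'w : Bf w (u' + (-(Qf u')) • w) = 1 := by
    rw [Bf_add_right, Bf_smul_right, hwu', hBww, mul_zero, add_zero]
  refine ⟨u' + (-(Qf u')) • w, (orth V).add_mem hu'o ((orth V).smul_mem _ hwo), ?_, hw'w, ?_⟩
  · rw [Qf_add, Bf_smul_right, Bf_comm u' w, hwu', Qf_smul, hQw]
    ring
  · intro y hy h1 h3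
    obtain ⟨a, ha, c, hc, rfl⟩ := Submodule.mem_sup.1 (hperp y hy h1)
    obtain ⟨t, rfl⟩ := Submodule.mem_span_singleton.1 hc
    have h4 : Bf (u' + (-(Qf u')) • w) a = 0 := by
      rw [Bf_add_left, Bf_smul_left, Bf_comm w a, hVw a ha, mul_zero, add_zero]
      exact mem_orth'.1 hu'o a ha
    rw [Bf_add_right, h4, Bf_smul_right, Bf_comm _ w, hw'w, mul_one, zero_add] at h3
    rw [h3, zero_smul, add_zero]
    exact ha

end lin

section germ

variable {k : Type*} [Field k] [CharZero k] {e : ℕ}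
variable {L : Type*} [Field L] [Algebra (MvPowerSeries (Fin e) k) L]
  [IsFractionRing (MvPowerSeries (Fin e) k) L] [Algebra k L]
  [IsScalarTower k (MvPowerSeries (Fin e) k) L] {n : ℕ}

/-- pairs to coordinates -/
def up (w : W k n) : Fin (n + 1) ⊕ Fin (n + 1) → k := Sum.elim w.1 w.2

theorem pw_up (w : W k n) : pw (up w) = w := rfl

theorem pw_inj {x y : Fin (n + 1) ⊕ Fin (n + 1) → k} (h : pw x = pw y) : x = y := by
  funext i
  rcases i with i | i
  · exact congrFun (congrArg Prod.fst h) i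
  · exact congrFun (congrArg Prod.snd h) i

theorem Bq_up (w : W k n) (x : Fin (n + 1) ⊕ Fin (n + 1) → k) : Bq (up w) x = Bf w (pw x) := rfl

theorem comp_Bq (l : L →ₗ[k] k) (w : Fin (n + 1) ⊕ Fin (n + 1) → k)
    (x : Fin (n + 1) ⊕ Fin (n + 1) → L) :
    l (Bq (cst L w) x) = Bq w (fun i => l (x i)) := by
  unfold Bq cst
  rw [map_sum]
  refine Finset.sum_congr rfl fun i _ => ?_
  rw [map_add, ← Algebra.smul_def, mul_comm (x (Sum.inl i)), ← Algebra.smul_def, map_smul,
    map_smul, smul_eq_mul, smul_eq_mul]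
  ring

theorem LV_eq_ext {X : Type*} (V : Submodule k (X → k)) : LV L V = ext L V := by
  unfold LV ext
  congr 1
  ext v
  constructor
  · rintro ⟨a, ha, rfl⟩
    exact ⟨a, ha, rfl⟩
  · rintro ⟨a, ha, rfl⟩
    exact ⟨a, ha, rfl⟩

/-- **`w ⟂ V₁`** -/
theorem w_perp (s r : Fin (n + 1) ⊕ Fin (n + 1) → MvPowerSeries (Fin e) k)
    (hsplit : ∀ l : Fin e, ∃ α : Fin e → L,
      (∀ x, ∑ m, α m * algebraMap _ L (MvPowerSeries.pderiv k m (r x)) = 0) ∧
      (∀ x, ∑ m, α m * algebraMap _ L (MvPowerSeries.pderiv k m (s x))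
        = algebraMap _ L (MvPowerSeries.pderiv k l (s x))))
    (hQ : Qs (s - r) = 0) (hd : finrank k (VW r : Submodule k (W k n)) = n)
    (hw : (pw (cs 0 s) - pw (cs 0 r) : W k n) ∉ (VW r : Submodule k (W k n)))
    (hI : Iso ((VW r : Submodule k (W k n)) ⊔ Submodule.span k {pw (cs 0 s) - pw (cs 0 r)})) :
    ∀ a ∈ (VW s : Submodule k (W k n)), Bf (pw (cs 0 s) - pw (cs 0 r) : W k n) a = 0 := by
  classical
  have h2 : (2 : k) ≠ 0 := two_ne_zero
  have : CharZero L := charZero_of_injective_algebraMap (R := k) (A := L) (algebraMap k L).injective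
  have h2L : (2 : L) ≠ 0 := two_ne_zero
  set w : W k n := pw (cs 0 s) - pw (cs 0 r) with hwdef
  obtain ⟨w', hw'o, hQw', hww', hV⟩ := exists_partner h2 hd hw hI
  have hperp := (prod_full (L := L) s r hsplit hQ).1
  have hpot := prod_pot (L := L) s r hsplit hQ
  have hwN : w ∈ (VW r : Submodule k (W k n)) ⊔ Submodule.span k {w} :=
    Submodule.mem_sup_right (Submodule.mem_span_singleton_self w)
  have hQw : Qf w = 0 := hI w hwN
  have hBww : Bf w w = 0 := by rw [Bf_self, hQw, mul_zero]
  have hBw'w' : Bf w' w' = 0 := by rw [Bf_self, hQw', mul_zero]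
  have hwo : w ∈ orth (VW r : Submodule k (W k n)) := mem_orth.2 fun b hb =>
    hI.Bf_eq_zero ((le_sup_left : (VW r : Submodule k (W k n)) ≤ _) hb) hwN
  have hIr : Iso (VW r : Submodule k (W k n)) := hI.mono le_sup_left
  -- the nonconstant part of `s`
  set s1 : Fin (n + 1) ⊕ Fin (n + 1) → MvPowerSeries (Fin e) k :=
    s - fun x => MvPowerSeries.C (cs 0 s x) with hs1
  have hcs : ∀ d : Fin e →₀ ℕ, cs d s1 ∈ Vs s := by
    intro d
    by_cases hd : d = 0
    · have h1 : cs d s1 = 0 := by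
        funext x
        rw [hd, hs1]
        simp [cs]
      rw [h1]; exact Submodule.zero_mem _
    · have h1 : cs d s1 = cs d s := by
        funext x
        rw [hs1]
        simp only [cs, Pi.sub_apply, map_sub]
        rw [MvPowerSeries.coeff_C, if_neg hd, sub_zero]
      rw [h1]; exact Submodule.subset_span ⟨d, hd, rfl⟩
  set X : Fin (n + 1) ⊕ Fin (n + 1) → L := toL L s1 with hX
  have hXV : X ∈ ext L (Vs s) := by
    rw [← LV_eq_ext]
    exact toL_mem_LV _ _ hcs
  set a : L := Bq (cst L (up w')) X with ha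
  set b : L := Bq (cst L (up w)) X with hb
  have hBc : ∀ x y : W k n, Bq (cst L (up x)) (cst L (up y)) = algebraMap k L (Bf x y) := by
    intro x y
    show Bq (fun i => algebraMap k L (up x i)) (fun i => algebraMap k L (up y i)) = _
    rw [← map_Bq]
    rfl
  have hWW : Bq (cst L (up w)) (cst L (up w)) = 0 := by rw [hBc, hBww, map_zero]
  have hW'W' : Bq (cst L (up w')) (cst L (up w')) = 0 := by rw [hBc, hBw'w', map_zero]
  have hWW' : Bq (cst L (up w)) (cst L (up w')) = 1 := by rw [hBc, hww', map_one]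
  have hW'W : Bq (cst L (up w')) (cst L (up w)) = 1 := by rw [Bq_comm, hWW']
  set y : Fin (n + 1) ⊕ Fin (n + 1) → L := X - (a • cst L (up w) + b • cst L (up w')) with hy
  have hyV : y ∈ LV L (Vs r) := by
    rw [LV_eq_ext]
    refine mem_ext_of_comp fun l => ?_
    have hxl := comp_mem hXV l
    have h3 : (fun i => l (y i)) = (fun i => l (X i)) -
        (Bq (up w') (fun i => l (X i)) • up w + Bq (up w) (fun i => l (X i)) • up w') := by
      rw [← comp_Bq, ← comp_Bq, ← ha, ← hb]
      funext i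
      simp only [hy, Pi.sub_apply, Pi.add_apply, Pi.smul_apply, smul_eq_mul, map_sub, map_add]
      have h4 : ∀ (c : L) (z : k), l (c * algebraMap k L z) = l c * z := by
        intro c z
        rw [mul_comm, ← Algebra.smul_def, map_smul, smul_eq_mul, mul_comm]
      unfold cst
      rw [h4, h4]
    have h5 : pw (fun i => l (X i)) ∈ orth (VW r : Submodule k (W k n)) :=
      mem_orth'.2 fun z hz => hperp _ ⟨_, hxl, rfl⟩ z hz
    have h6 : pw (fun i => l (y i)) ∈ (VW r : Submodule k (W k n)) := by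
      have h7 : (pw (fun i => l (y i)) : W k n) = pw (fun i => l (X i)) +
          ((-(Bf w' (pw (fun i => l (X i))))) • w + (-(Bf w (pw (fun i => l (X i))))) • w') := by
        rw [h3, map_sub, map_add, map_smul, map_smul, Bq_up, Bq_up, pw_up, pw_up, neg_smul,
          neg_smul]
        abel
      refine hV _ ?_ ?_ ?_
      · rw [h7]
        exact Submodule.add_mem _ h5 (Submodule.add_mem _ (Submodule.smul_mem _ _ hwo)
          (Submodule.smul_mem _ _ hw'o))
      · rw [h7, Bf_add_right, Bf_add_right, Bf_smul_right, Bf_smul_right, hBww, hww']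
        ring
      · rw [h7, Bf_add_right, Bf_add_right, Bf_smul_right, Bf_smul_right, hBw'w',
          Bf_comm w' w, hww']
        ring
    obtain ⟨z, hz, hzy⟩ := h6
    rw [← pw_inj hzy]
    exact hz
  have hyy : Bq y y = 0 := Bq_LV (fun x hx z hz => by
    rw [← Bf_pw]
    exact hIr.Bf_eq_zero ⟨x, hx, rfl⟩ ⟨z, hz, rfl⟩) _ hyV _ hyV
  have hXy : X = y + (a • cst L (up w) + b • cst L (up w')) := by rw [hy]; abel
  have hWy : Bq (cst L (up w)) y = 0 := by
    rw [hy, Bq_comm, Bq_sub_left, Bq_add_left, Bq_smul_left, Bq_smul_left, Bq_comm X,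
      hWW, hW'W, ← hb]
    ring
  have hW'y : Bq (cst L (up w')) y = 0 := by
    rw [hy, Bq_comm, Bq_sub_left, Bq_add_left, Bq_smul_left, Bq_smul_left, Bq_comm X,
      hWW', hW'W', ← ha]
    ring
  have hQX : Qs X = a * b := by
    have h3 : Bq X X = 2 * (a * b) := by
      conv_lhs => rw [hXy]
      simp only [Bq_add_left, Bq_add_right, Bq_smul_left, Bq_smul_right]
      rw [hyy, hWy, hW'y, Bq_comm y, Bq_comm y, hWy, hW'y, hWW, hWW', hW'W, hW'W']
      ring
    rw [Bq_self] at h3
    exact mul_left_cancel₀ h2L h3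
  -- the potential
  have hCm : ∀ z : W k n, (fun x => algebraMap (MvPowerSeries (Fin e) k) L
      (MvPowerSeries.C (up z x))) = cst L (up z) := by
    intro z
    funext x
    rw [cst, IsScalarTower.algebraMap_apply k (MvPowerSeries (Fin e) k) L]
    rfl
  have hBR : ∀ z : W k n, algebraMap (MvPowerSeries (Fin e) k) L
      (Bq (fun x => MvPowerSeries.C (up z x)) s1) = Bq (cst L (up z)) X := by
    intro z
    rw [map_Bq, hCm]
    rfl
  have hpot2 : a * b + b = 0 := by
    have h3 := congrArg (algebraMap (MvPowerSeries (Fin e) k) L) hpot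
    rw [map_add, map_zero, map_Qs] at h3
    have h4 : (fun x => MvPowerSeries.C (cs 0 s x - cs 0 r x) :
        Fin (n + 1) ⊕ Fin (n + 1) → MvPowerSeries (Fin e) k) =
        fun x => MvPowerSeries.C (up w x) := by
      funext x
      rcases x with x | x <;> rfl
    rw [h4, hBR] at h3
    have h5 : Qs (fun x => algebraMap (MvPowerSeries (Fin e) k) L (s1 x)) = a * b := hQX
    rw [h5] at h3
    exact h3
  have hs10 : ∀ x, MvPowerSeries.constantCoeff (s1 x) = 0 := by
    intro x
    rw [hs1]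
    simp [cs]
  have ha1 : a + 1 ≠ 0 := by
    intro h3
    have h4 : algebraMap (MvPowerSeries (Fin e) k) L
        (Bq (fun x => MvPowerSeries.C (up w' x)) s1 + 1) = 0 := by
      rw [map_add, hBR, map_one]
      exact h3
    have h5 : Bq (fun x => MvPowerSeries.C (up w' x)) s1 + 1 = 0 :=
      IsFractionRing.injective (MvPowerSeries (Fin e) k) L (by rw [h4, map_zero])
    have h6 := congrArg (MvPowerSeries.constantCoeff (σ := Fin e) (R := k)) h5
    rw [map_add, map_Bq, map_one, map_zero] at h6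
    have h7 : Bq (fun x => MvPowerSeries.constantCoeff (MvPowerSeries.C (up w' x) :
        MvPowerSeries (Fin e) k)) (fun x => MvPowerSeries.constantCoeff (s1 x)) = 0 := by
      unfold Bq
      refine Finset.sum_eq_zero fun i _ => ?_
      simp only [hs10, mul_zero, zero_mul, add_zero]
    rw [h7, zero_add] at h6
    exact one_ne_zero h6
  have hb0 : b = 0 := by
    have h3 : b * (a + 1) = 0 := by rw [← hpot2]; ring
    exact (mul_eq_zero.1 h3).resolve_right ha1
  have hR0 : Bq (fun x => MvPowerSeries.C (up w x)) s1 = 0 := by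
    apply IsFractionRing.injective (MvPowerSeries (Fin e) k) L
    rw [hBR, map_zero]
    exact hb0
  have key : ∀ d : Fin e →₀ ℕ, d ≠ 0 → Bq (up w) (cs d s) = 0 := by
    intro d hd
    have h3 := congrArg (MvPowerSeries.coeff (R := k) d) hR0
    rw [map_zero] at h3
    rw [← h3]
    unfold Bq
    rw [map_sum]
    refine Finset.sum_congr rfl fun i _ => ?_
    have h4 : ∀ x, MvPowerSeries.coeff d (s1 x) = cs d s x := by
      intro x
      rw [hs1]
      simp only [cs, Pi.sub_apply, map_sub]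
      rw [MvPowerSeries.coeff_C, if_neg hd, sub_zero]
    rw [map_add, MvPowerSeries.coeff_C_mul, MvPowerSeries.coeff_mul_C, h4, h4]
  rintro _ ⟨x, hx, rfl⟩
  show Bq (up w) x = 0
  induction hx using Submodule.span_induction with
  | mem y hy =>
    obtain ⟨d, hd, rfl⟩ := hy
    exact key d hd
  | zero => rw [Bq_comm]; exact Bq_zero_left _
  | add x y _ _ hx hy => rw [Bq_add_right, hx, hy, add_zero]
  | smul c x _ hx => rw [Bq_smul_right, hx, mul_zero]

end germ

end Vale.Agent.P054.T2.H82
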